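import Mathlib

/-! Nuclearity by the uniqueness of the C*-norm on algebraic tensor products. -/

open scoped TensorProduct

namespace Vale.Agent.P095L

universe u

/-- `n` is a C*-norm on the star algebra `R`. -/
structure IsCStarNorm {R : Type u} [NonUnitalRing R] [StarRing R] [Module ℂ R] (n : R → ℝ) :
    Prop where
  eq_zero : ∀ x, n x = 0 → x = 0
  add : ∀ x y, n (x + y) ≤ n x + n y
  smul : ∀ (c : ℂ) x, n (c • x) = ‖c‖ * n x
  mul : ∀ x y, n (x * y) ≤ n x * n y
  cstar : ∀ x, n (star x * x) = n x ^ 2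

/-- For every C*-algebra `B` there is only one C*-norm on the algebraic tensor product of `A`
and `B`. -/
def OneNorm (A : Type u) [NonUnitalCStarAlgebra A] : Prop :=
  ∀ (B : Type u) [NonUnitalCStarAlgebra B] (n n' : A ⊗[ℂ] B → ℝ),
    IsCStarNorm n → IsCStarNorm n' → n = n'

end Vale.Agent.P095L
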