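import Vale.Agent.P095L58.F
import Vale.Agent.P095JS.PartT5

/-! Uniqueness of C*-tensor norms implies the completely positive approximation property. -/

set_option linter.unusedSectionVars false

open Filter Topology
open scoped TensorProduct ComplexOrder

namespace Vale.Agent.P095L

open Vale.Agent.P095R Vale.Agent.JS.PartT5

universe u

variable {A : Type u} [NonUnitalCStarAlgebra A]

/-- completely positive kernels -/
def Ker {ι : Type} (K : A →ₗ[ℂ] Matrix ι ι ℂ) : Prop :=
  ∀ (N : ℕ) (x : Fin N → A), ∃ (ρ : Type) (_ : Fintype ρ) (Y : ρ → Fin N → ι → ℂ),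
    ∀ i j k l, K (star (x i) * x j) k l = ∑ r, star (Y r i k) * Y r j l

/-- factorable maps -/
def Fac (θ : A → A) : Prop :=
  ∃ (ι : Type) (_ : Fintype ι) (K : A →ₗ[ℂ] Matrix ι ι ℂ) (b : ι → A), Ker K ∧
    ∀ a, θ a = ∑ k, ∑ l, K a k l • (star (b k) * b l)

theorem Fac.zero : Fac (fun _ : A => (0 : A)) :=
  ⟨Empty, inferInstance, 0, Empty.elim, fun _ _ => ⟨Empty, inferInstance, Empty.elim,
    fun _ _ k => k.elim⟩, fun a => by simp⟩

theorem Fac.smul {θ : A → A} (h : Fac θ) {t : ℝ} (ht : 0 ≤ t) : Fac fun a => t • θ a := by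
  obtain ⟨ι, _, K, b, hK, h⟩ := h
  refine ⟨ι, inferInstance, K, fun k => √t • b k, hK, fun a => ?_⟩
  simp only [h, Finset.smul_sum]
  refine Finset.sum_congr rfl fun k _ => Finset.sum_congr rfl fun l _ => ?_
  rw [star_smul, smul_mul_smul_comm, star_trivial (√t), Real.mul_self_sqrt ht, smul_comm]

theorem Fac.add {θ θ' : A → A} (h : Fac θ) (h' : Fac θ') : Fac fun a => θ a + θ' a := by
  obtain ⟨ι, _, K, b, hK, h⟩ := h
  obtain ⟨ι', _, K', b', hK', h'⟩ := h'
  refine ⟨ι ⊕ ι', inferInstance,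
    { toFun := fun a => Matrix.fromBlocks (K a) 0 0 (K' a)
      map_add' := fun x y => by simp [Matrix.fromBlocks_add]
      map_smul' := fun c x => by simp [Matrix.fromBlocks_smul] }, Sum.elim b b',
    fun N x => ?_, fun a => ?_⟩
  · obtain ⟨ρ, _, Y, hY⟩ := hK N x
    obtain ⟨ρ', _, Y', hY'⟩ := hK' N x
    refine ⟨ρ ⊕ ρ', inferInstance, Sum.elim (fun r i => Sum.elim (Y r i) 0)
      (fun r i => Sum.elim 0 (Y' r i)), fun i j k l => ?_⟩
    rcases k with k | k <;> rcases l with l | l <;> simp [hY, hY']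
  · simp [h, h']

open scoped MatrixOrder in
theorem fac_vec {H : Type u} [NormedAddCommGroup H] [InnerProductSpace ℂ H] [CompleteSpace H]
    (π : A →⋆ₙₐ[ℂ] (H →L[ℂ] H)) {m : ℕ} (v : Fin m → H) (b : Fin m → A) :
    Fac fun a => ∑ k, ∑ l, inner ℂ (v k) (π a (v l)) • (star (b k) * b l) := by
  refine ⟨Fin m, inferInstance,
    { toFun := fun a => Matrix.of fun k l => inner ℂ (v k) (π a (v l))
      map_add' := fun x y => by ext k l; simp
      map_smul' := fun c x => by ext k l; simp }, b, fun N x => ?_,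
    fun a => rfl⟩
  obtain ⟨Y, hY⟩ := CStarAlgebra.nonneg_iff_eq_star_mul_self.mp
    (Matrix.posSemidef_gram ℂ fun p : Fin N × Fin m => π (x p.1) (v p.2)).nonneg
  refine ⟨Fin N × Fin m, inferInstance, fun r i k => Y r (i, k), fun i j k l => ?_⟩
  have h1 := congrFun (congrFun hY (i, k)) (j, l)
  rw [Matrix.gram_apply, Matrix.mul_apply] at h1
  refine Eq.trans ?_ h1
  change inner ℂ (v k) (π (star (x i) * x j) (v l)) = _
  rw [map_mul, map_star, mul_apply_eq_comp, ContinuousLinearMap.star_eq_adjoint,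
    ContinuousLinearMap.adjoint_inner_right]

open scoped Matrix.Norms.L2Operator in
theorem Fac.cp {θ : A → A} (h : Fac θ) : ∃ (k : ℕ) (φ : A →ₗ[ℂ] Matrix (Fin k) (Fin k) ℂ)
    (ψ : Matrix (Fin k) (Fin k) ℂ →ₗ[ℂ] A), IsCPMap φ ∧ IsCPMap ψ ∧ ∀ a, ψ (φ a) = θ a := by
  obtain ⟨ι, _, K, b, hK, h⟩ := h
  obtain ⟨m, ⟨e⟩⟩ : ∃ m, Nonempty (Fin m ≃ ι) := ⟨_, ⟨(Fintype.equivFin ι).symm⟩⟩
  refine ⟨m,
    { toFun := fun a => (K a).submatrix e e
      map_add' := fun x y => by ext k l; simp
      map_smul' := fun c x => by ext k l; simp },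
    { toFun := fun X => ∑ k, ∑ l, X k l • (star (b (e k)) * b (e l))
      map_add' := fun x y => by simp only [Matrix.add_apply, add_smul, Finset.sum_add_distrib]
      map_smul' := fun c x => by
        simp only [Matrix.smul_apply, smul_assoc, Finset.smul_sum, RingHom.id_apply] },
    isCPMap_of_rows _ fun N x => ?_, isCPMap_of_rows _ fun N x => ?_, fun a => ?_⟩
  · obtain ⟨ρ, _, Y, hY⟩ := hK N x
    rcases m with _ | m
    · exact ⟨Empty, inferInstance, Empty.elim, fun i j => Subsingleton.elim _ _⟩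
    refine ⟨ρ, inferInstance, fun r i => Matrix.of fun s k => if s = 0 then Y r i (e k) else 0,
      fun i j => ?_⟩
    ext k l
    rw [Matrix.sum_apply]
    refine (hY i j (e k) (e l)).trans (Finset.sum_congr rfl fun r _ => ?_)
    simp [Matrix.mul_apply, Matrix.star_apply]
  · refine ⟨Fin m, inferInstance, fun s i => ∑ k, x i s k • b (e k), fun i j => ?_⟩
    have h1 : ∀ s, star (∑ k, x i s k • b (e k)) * (∑ k, x j s k • b (e k)) =
        ∑ k, ∑ l, (star (x i s k) * x j s l) • (star (b (e k)) * b (e l)) := by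
      intro s
      rw [star_sum, Finset.sum_mul]
      refine Finset.sum_congr rfl fun k _ => ?_
      rw [Finset.mul_sum]
      refine Finset.sum_congr rfl fun l _ => ?_
      rw [star_smul, smul_mul_smul_comm]
    simp_rw [h1]
    symm
    change _ = ∑ k, ∑ l, (star (x i) * x j) k l • (star (b (e k)) * b (e l))
    rw [Finset.sum_comm]
    refine Finset.sum_congr rfl fun k _ => ?_
    rw [Finset.sum_comm]
    refine Finset.sum_congr rfl fun l _ => ?_
    rw [Matrix.mul_apply, Finset.sum_smul]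
    rfl
  · rw [h, ← e.sum_comp]
    change ∑ k, ∑ l, K a (e k) (e l) • (star (b (e k)) * b (e l)) = _
    exact Finset.sum_congr rfl fun k _ =>
      e.sum_comp fun l => K a (e k) l • (star (b (e k)) * b l)

theorem dual_step (hA : OneNorm A) {S : Type} [Fintype S] (f : S → A →L[ℂ] ℂ) (a : S → A)
    (h : ∀ θ, Fac θ → (∑ s, f s (θ (a s))).re ≤ 0) : (∑ s, f s (a s)).re ≤ 0 := by
  let _ := CStarAlgebra.spectralOrder A
  have _ := CStarAlgebra.spectralOrderedRing A
  let _ := CStarAlgebra.spectralOrder (Unitization ℂ A)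
  have _ := CStarAlgebra.spectralOrderedRing (Unitization ℂ A)
  obtain ⟨H, _, _, _, π, hπ⟩ := exists_rep A
  let ι : A →⋆ₙₐ[ℂ] Unitization ℂ A := Unitization.inrNonUnitalStarAlgHom ℂ A
  let sn : Unitization ℂ A →L[ℂ] A := ⟨Unitization.sndHom ℂ ℂ A, Unitization.continuous_snd⟩
  choose c ω hω using fun s => jordan ((f s).comp sn)
  have hf : ∀ s x, f s x = ∑ j, c s j * ω s j (ι x) := fun s x => hω s (ι x)
  have key : ∀ e : A, (∑ s, f s (star e * a s * e)).re ≤ 0 := by
    intro e
    let ω' : S × Fin 4 → Unitization ℂ A →ₚ[ℂ] ℂ := fun p => PositiveLinearMap.mk₀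
      ((ω p.1 p.2).toLinearMap ∘ₗ LinearMap.mulRight ℂ (ι e) ∘ₗ LinearMap.mulLeft ℂ (star (ι e)))
      fun x hx => (ω p.1 p.2).map_nonneg (star_left_conjugate_nonneg hx _)
    have hω' : ∀ p x, ω' p x = ω p.1 p.2 (star (ι e) * x * ι e) := fun p x => rfl
    have h1 := core hA ι π hπ ω' (fun p => c p.1 p.2 • a p.1) fun m v b => by
      have hb : ∀ k, ι (sn (b k * ι e)) = b k * ι e := fun k =>
        Unitization.ext (by simp [ι]) rfl
      refine (le_of_eq ?_).trans (h _ (fac_vec π v fun k => sn (b k * ι e)))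
      congr 1
      rw [Fintype.sum_prod_type]
      refine Finset.sum_congr rfl fun s _ => ?_
      rw [hf]
      refine Finset.sum_congr rfl fun j _ => ?_
      rw [hω', ← smul_eq_mul (c s j), ← map_smul (ω s j)]
      congr 1
      simp only [map_sum, map_smul, map_mul, map_star, hb, Finset.mul_sum, Finset.sum_mul,
        Finset.smul_sum, smul_apply, inner_smul_right, mul_smul, mul_smul_comm, smul_mul_assoc,
        star_mul, mul_assoc]
    refine (le_of_eq ?_).trans h1
    congr 1
    rw [Fintype.sum_prod_type]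
    refine Finset.sum_congr rfl fun s _ => ?_
    rw [hf]
    refine Finset.sum_congr rfl fun j _ => ?_
    rw [hω', map_smul, mul_smul_comm, smul_mul_assoc, map_smul, map_mul ι, map_mul ι, map_star ι,
      smul_eq_mul]
  have hl := CStarAlgebra.increasingApproximateUnit A
  have h2 : ∀ x : A, Tendsto (fun e => star e * x * e) (CStarAlgebra.approximateUnit A) (𝓝 x) := by
    intro x
    rw [tendsto_iff_norm_sub_tendsto_zero]
    have h3 := (tendsto_iff_norm_sub_tendsto_zero.1 (hl.tendsto_mul_left x)).add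
      (tendsto_iff_norm_sub_tendsto_zero.1 (hl.tendsto_mul_right x))
    rw [add_zero] at h3
    refine squeeze_zero' (Eventually.of_forall fun _ => norm_nonneg _) ?_ h3
    filter_upwards [hl.eventually_star_eq, hl.eventually_norm] with e h4 h5
    have h6 : star e * x * e - x = e * (x * e - x) + (e * x - x) := by
      rw [h4]; noncomm_ring
    rw [h6]
    refine (norm_add_le _ _).trans (add_le_add_left ((norm_mul_le _ _).trans ?_) _)
    exact mul_le_of_le_one_left (norm_nonneg _) h5
  refine le_of_tendsto' (x := CStarAlgebra.approximateUnit A) ?_ key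
  exact (Complex.continuous_re.tendsto _).comp (tendsto_finsetSum _ fun s _ =>
    ((f s).continuous.tendsto _).comp (h2 (a s)))

theorem cpap_of_oneNorm (hA : OneNorm A) : IsNuclearAlg A := by
  intro F ε hε
  let a : Fin F.card → A := fun s => F.equivFin.symm s
  let C : Set (Fin F.card → A) := {w | ∃ θ, Fac θ ∧ w = fun s => θ (a s)}
  have hC : Convex ℝ C := by
    rintro _ ⟨θ, hθ, rfl⟩ _ ⟨θ', hθ', rfl⟩ s t hs ht -
    exact ⟨_, (hθ.smul hs).add (hθ'.smul ht), rfl⟩
  have ha : a ∈ closure C := by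
    by_contra hn
    obtain ⟨g, t, h1, h2⟩ := RCLike.geometric_hahn_banach_closed_point (𝕜 := ℂ) hC.closure
      isClosed_closure hn
    have hg : ∀ w, g w = ∑ s, g.comp (ContinuousLinearMap.single ℂ (fun _ => A) s) (w s) := by
      intro w
      conv_lhs => rw [← Finset.univ_sum_single w, map_sum]
      rfl
    have h0 : 0 < t := by simpa using h1 0 (subset_closure ⟨_, Fac.zero, rfl⟩)
    have h3 := dual_step hA (fun s => g.comp (ContinuousLinearMap.single ℂ (fun _ => A) s)) a
      fun θ hθ => by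
        rw [← hg fun s => θ (a s)]
        by_contra h4
        push Not at h4
        have h5 := h1 _ (subset_closure ⟨_, hθ.smul (div_pos h0 h4).le, rfl⟩)
        have h6 : (fun s => (t / (g fun s => θ (a s)).re) • θ (a s)) =
          (t / (g fun s => θ (a s)).re) • fun s => θ (a s) := rfl
        rw [h6, ContinuousLinearMap.map_smul_of_tower, RCLike.re_to_complex, Complex.smul_re,
          smul_eq_mul, div_mul_cancel₀ _ h4.ne'] at h5
        exact lt_irrefl _ h5
    rw [← hg] at h3
    exact absurd (h0.trans h2) (not_lt.2 h3)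
  obtain ⟨_, ⟨θ, hθ, rfl⟩, h1⟩ := Metric.mem_closure_iff.1 ha ε hε
  obtain ⟨k, φ, ψ, h2, h3, h4⟩ := hθ.cp
  refine ⟨k, φ, ψ, h2, h3, fun x hx => ?_⟩
  have h5 := (dist_le_pi_dist _ _ (F.equivFin ⟨x, hx⟩)).trans_lt h1
  simp only [a, Equiv.symm_apply_apply] at h5
  rwa [h4, ← dist_eq_norm, dist_comm]

end Vale.Agent.P095L
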