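import Vale.Agent.P095L58.Defs
import Vale.Agent.P095JS.PartT2

/-! Operators on Hilbert space tensor products; domination by the spatial norm. -/

set_option linter.unusedSectionVars false

open Filter Topology UniformSpace
open scoped TensorProduct

namespace Vale.Agent.P095L

open Vale.Agent.JS.PartT2

universe u

section hilb

variable {H K : Type u} [NormedAddCommGroup H] [InnerProductSpace ℂ H] [CompleteSpace H]
  [NormedAddCommGroup K] [InnerProductSpace ℂ K] [CompleteSpace K]

/-- elementary tensors -/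
noncomputable def tt (h : H) (k : K) : HT H K := ((h ⊗ₜ k : H ⊗[ℂ] K) : HT H K)

omit [CompleteSpace H] [CompleteSpace K] in
theorem inner_tt (h h' : H) (k k' : K) :
    inner ℂ (tt h k) (tt h' k') = inner ℂ h h' * inner ℂ k k' := by
  simp [tt]

omit [CompleteSpace H] [CompleteSpace K] in
theorem norm_tt (h : H) (k : K) : ‖tt h k‖ = ‖h‖ * ‖k‖ := by
  simp [tt]

omit [CompleteSpace H] [CompleteSpace K] in
theorem op_ext {F : Type*} [NormedAddCommGroup F] [InnerProductSpace ℂ F]
    {S S' : HT H K →L[ℂ] F} (h : ∀ a b, S (tt a b) = S' (tt a b)) : S = S' := by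
  refine compl_ext fun x => ?_
  induction x with
  | zero => rw [Completion.coe_zero, map_zero, map_zero]
  | add x y hx hy => rw [Completion.coe_add, map_add, map_add, hx, hy]
  | tmul a b => exact h a b

omit [CompleteSpace H] [CompleteSpace K] in
theorem op_zero {S : HT H K →L[ℂ] HT H K}
    (h : ∀ a b a' b', inner ℂ (tt a b) (S (tt a' b')) = 0) : S = 0 := by
  refine op_ext fun a' b' => ?_
  have h1 : innerSL ℂ (S (tt a' b')) = 0 := op_ext (F := ℂ) fun a b => by
    rw [innerSL_apply_apply, ← inner_conj_symm, h, map_zero]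
    rfl
  have h2 := congrArg (fun f : HT H K →L[ℂ] ℂ => f (S (tt a' b'))) h1
  simpa using h2

variable (K) in
/-- `S ↦ S ⊗ 1` -/
noncomputable def lA : (H →L[ℂ] H) →⋆ₐ[ℂ] (HT H K →L[ℂ] HT H K) where
  toFun := fun S => (S.rTensor K).completion
  map_one' := by rw [ContinuousLinearMap.rTensor_one, completion_one]
  map_mul' := fun S T => by rw [ContinuousLinearMap.rTensor_mul, completion_mul]
  map_zero' := by
    rw [ContinuousLinearMap.rTensor_zero]
    exact compl_ext (fun x => by simp)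
  map_add' := fun S T => by rw [ContinuousLinearMap.rTensor_add, completion_add]
  commutes' := fun c => by
    rw [Algebra.algebraMap_eq_smul_one, Algebra.algebraMap_eq_smul_one,
      ContinuousLinearMap.rTensor_smul, completion_smul, ContinuousLinearMap.rTensor_one,
      completion_one]
  map_star' := fun S => (completion_adjoint (inner_rTensor S)).symm

variable (H) in
/-- `S ↦ 1 ⊗ S` -/
noncomputable def rA : (K →L[ℂ] K) →⋆ₐ[ℂ] (HT H K →L[ℂ] HT H K) where
  toFun := fun S => (S.lTensor H).completion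
  map_one' := by rw [ContinuousLinearMap.lTensor_one, completion_one]
  map_mul' := fun S T => by rw [ContinuousLinearMap.lTensor_mul, completion_mul]
  map_zero' := by
    rw [ContinuousLinearMap.lTensor_zero]
    exact compl_ext (fun x => by simp)
  map_add' := fun S T => by rw [ContinuousLinearMap.lTensor_add, completion_add]
  commutes' := fun c => by
    rw [Algebra.algebraMap_eq_smul_one, Algebra.algebraMap_eq_smul_one,
      ContinuousLinearMap.lTensor_smul, completion_smul, ContinuousLinearMap.lTensor_one,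
      completion_one]
  map_star' := fun S => (completion_adjoint (inner_lTensor S)).symm

theorem lA_tt (S : H →L[ℂ] H) (h : H) (k : K) : lA K S (tt h k) = tt (S h) k := by
  change (S.rTensor K).completion (tt h k) = _
  simp [tt]

theorem rA_tt (S : K →L[ℂ] K) (h : H) (k : K) : rA H S (tt h k) = tt h (S k) := by
  change (S.lTensor H).completion (tt h k) = _
  simp [tt]

theorem lr_tt (S : H →L[ℂ] H) (S' : K →L[ℂ] K) (h : H) (k : K) :
    (lA K S * rA H S') (tt h k) = tt (S h) (S' k) := by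
  rw [mul_apply_eq_comp, rA_tt, lA_tt]

theorem lr_comm (S : H →L[ℂ] H) (S' : K →L[ℂ] K) : Commute (lA K S) (rA H S') :=
  op_ext fun h k => by rw [lr_tt, mul_apply_eq_comp, lA_tt, rA_tt]

theorem lA_inj [Nontrivial K] : Function.Injective (lA K : (H →L[ℂ] H) → _) := by
  rw [injective_iff_map_eq_zero]
  intro S hS
  obtain ⟨k, hk⟩ := exists_ne (0 : K)
  ext h
  have h1 := norm_tt (S h) k
  rw [← lA_tt, hS] at h1
  simp only [zero_apply, norm_zero] at h1
  have h2 := (mul_eq_zero.1 h1.symm).resolve_right (norm_ne_zero_iff.2 hk)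
  simpa using h2

/-- vector functionals -/
noncomputable def om (h h' : H) : (H →L[ℂ] H) →L[ℂ] ℂ :=
  (innerSL ℂ h).comp (ContinuousLinearMap.apply ℂ H h')

omit [CompleteSpace H] in
theorem om_apply (h h' : H) (S : H →L[ℂ] H) : om h h' S = inner ℂ h (S h') := rfl

omit [CompleteSpace H] in
theorem norm_le_of_om {S : H →L[ℂ] H} {C : ℝ} (hC : 0 ≤ C)
    (h : ∀ a b, ‖om a b S‖ ≤ C * (‖a‖ * ‖b‖)) : ‖S‖ ≤ C := by
  refine S.opNorm_le_bound hC fun b => ?_
  have h1 := h (S b) b
  rw [om_apply, inner_self_eq_norm_sq_to_K, norm_pow, RCLike.norm_ofReal, abs_norm] at h1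
  rcases (norm_nonneg (S b)).eq_or_lt with h2 | h2
  · rw [← h2]; positivity
  · nlinarith

omit [CompleteSpace H] in
theorem norm_om_le (a b : H) (S : H →L[ℂ] H) : ‖om a b S‖ ≤ ‖S‖ * (‖a‖ * ‖b‖) := by
  rw [om_apply]
  refine (norm_inner_le_norm _ _).trans ?_
  have := S.le_opNorm b
  calc _ ≤ ‖a‖ * (‖S‖ * ‖b‖) := by gcongr
    _ = _ := by ring

end hilb

section alg

variable {A Z : Type u} [NonUnitalCStarAlgebra A] [NonUnitalCStarAlgebra Z]

/-- a star homomorphism as a continuous linear map -/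
noncomputable def hc {B : Type u} [NonUnitalCStarAlgebra B] (f : A →⋆ₙₐ[ℂ] B) : A →L[ℂ] B :=
  LinearMap.mkContinuous ⟨⟨f, map_add f⟩, map_smul f⟩ 1
    fun x => by simpa using NonUnitalStarAlgHom.norm_apply_le f x

@[simp] theorem hc_apply {B : Type u} [NonUnitalCStarAlgebra B] (f : A →⋆ₙₐ[ℂ] B) (a : A) :
    hc f a = f a := rfl

/-- product functionals -/
noncomputable def fg (f : A →L[ℂ] ℂ) (g : Z →L[ℂ] ℂ) : A ⊗[ℂ] Z →ₗ[ℂ] ℂ :=
  LinearMap.mul' ℂ ℂ ∘ₗ TensorProduct.map f.toLinearMap g.toLinearMap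

@[simp] theorem fg_tmul (f : A →L[ℂ] ℂ) (g : Z →L[ℂ] ℂ) (a : A) (z : Z) :
    fg f g (a ⊗ₜ z) = f a * g z := by simp [fg]

/-- slice maps -/
noncomputable def sl (f : A →L[ℂ] ℂ) : A ⊗[ℂ] Z →ₗ[ℂ] Z :=
  (TensorProduct.lid ℂ Z).toLinearMap ∘ₗ TensorProduct.map f.toLinearMap LinearMap.id

noncomputable def sr (g : Z →L[ℂ] ℂ) : A ⊗[ℂ] Z →ₗ[ℂ] A :=
  (TensorProduct.rid ℂ A).toLinearMap ∘ₗ TensorProduct.map LinearMap.id g.toLinearMap

theorem sl_fg (f : A →L[ℂ] ℂ) (g : Z →L[ℂ] ℂ) (x : A ⊗[ℂ] Z) : g (sl f x) = fg f g x := by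
  induction x with
  | zero => simp
  | add x y hx hy => rw [map_add, map_add, map_add, hx, hy]
  | tmul a z => simp [sl]

theorem sr_fg (f : A →L[ℂ] ℂ) (g : Z →L[ℂ] ℂ) (x : A ⊗[ℂ] Z) : f (sr g x) = fg f g x := by
  induction x with
  | zero => simp
  | add x y hx hy => rw [map_add, map_add, map_add, hx, hy]
  | tmul a z => simp [sr, mul_comm]

theorem eq_zero_of_fg (x : A ⊗[ℂ] Z) (h : ∀ f g, fg f g x = 0) : x = 0 := by
  let 𝒞 := Module.Free.chooseBasis ℂ Z
  let e := TensorProduct.equivFinsuppOfBasisRight (M := A) 𝒞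
  refine e.map_eq_zero_iff.1 ?_
  ext c
  refine SeparatingDual.eq_zero_of_forall_dual_eq_zero (R := ℂ) fun f => ?_
  have h1 : sl f x = 0 :=
    SeparatingDual.eq_zero_of_forall_dual_eq_zero (R := ℂ) fun g => (sl_fg f g x).trans (h f g)
  have h2 : ∀ x : A ⊗[ℂ] Z, 𝒞.coord c (sl f x) = f (e x c) := by
    intro x
    induction x with
    | zero => simp
    | add x y hx hy => rw [map_add, map_add, hx, hy, map_add, Finsupp.add_apply, map_add]
    | tmul a b =>
      have h3 : e (a ⊗ₜ b) c = 𝒞.repr b c • a :=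
        TensorProduct.equivFinsuppOfBasisRight_apply_tmul_apply 𝒞 a b c
      rw [h3, map_smul]
      simp [sl, mul_comm]
  rw [← h2, h1, map_zero]

variable {B : Type u} [NonUnitalCStarAlgebra B] {P : Type u} [NonUnitalCStarAlgebra P]

/-- multiplicative and star preserving -/
structure MS (T : A →ₗ[ℂ] Z →ₗ[ℂ] B) : Prop where
  mul : ∀ a a' z z', T (a * a') (z * z') = T a z * T a' z'
  star : ∀ a z, T (star a) (star z) = star (T a z)

theorem MS.lift_mul {T : A →ₗ[ℂ] Z →ₗ[ℂ] B} (h : MS T) (x y : A ⊗[ℂ] Z) :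
    TensorProduct.lift T (x * y) = TensorProduct.lift T x * TensorProduct.lift T y := by
  induction x with
  | zero => simp
  | add x x' hx hx' => rw [add_mul, map_add, map_add, add_mul, hx, hx']
  | tmul a z =>
    induction y with
    | zero => simp
    | add y y' hy hy' => rw [mul_add, map_add, map_add, mul_add, hy, hy']
    | tmul a' z' =>
      rw [Algebra.TensorProduct.tmul_mul_tmul, TensorProduct.lift.tmul, TensorProduct.lift.tmul,
        TensorProduct.lift.tmul, h.mul]

theorem MS.lift_star {T : A →ₗ[ℂ] Z →ₗ[ℂ] B} (h : MS T) (x : A ⊗[ℂ] Z) :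
    TensorProduct.lift T (Star.star x) = Star.star (TensorProduct.lift T x) := by
  induction x with
  | zero => simp
  | add x y hx hy => rw [star_add, map_add, map_add, star_add, hx, hy]
  | tmul a z => rw [TensorProduct.star_tmul, TensorProduct.lift.tmul, TensorProduct.lift.tmul,
      h.star]

/-- product functionals extend and separate the points -/
def Sep (T : A →ₗ[ℂ] Z →ₗ[ℂ] B) : Prop :=
  ∀ y : B, y ≠ 0 → ∃ (G : B →L[ℂ] ℂ) (f : A →L[ℂ] ℂ) (g : Z →L[ℂ] ℂ), G y ≠ 0 ∧
    ∀ a z, G (T a z) = f a * g z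

/-- product functionals are bounded -/
def Bd (T : A →ₗ[ℂ] Z →ₗ[ℂ] B) : Prop :=
  ∀ f g x, ‖fg f g x‖ ≤ ‖f‖ * ‖g‖ * ‖TensorProduct.lift T x‖

theorem dom {T : A →ₗ[ℂ] Z →ₗ[ℂ] B} {T' : A →ₗ[ℂ] Z →ₗ[ℂ] P} (h : MS T) (h' : MS T') (hb : Bd T)
    (hs : Sep T') (x : A ⊗[ℂ] Z) : ‖TensorProduct.lift T' x‖ ≤ ‖TensorProduct.lift T x‖ := by
  let L := (TensorProduct.lift T).prod (TensorProduct.lift T')
  let R : NonUnitalStarSubalgebra ℂ (B × P) :=
    { carrier := LinearMap.range L
      add_mem' := fun ha hb => Submodule.add_mem _ ha hb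
      zero_mem' := Submodule.zero_mem _
      smul_mem' := fun c _ hx => Submodule.smul_mem _ c hx
      mul_mem' := by
        rintro _ _ ⟨x, rfl⟩ ⟨y, rfl⟩
        exact ⟨x * y, Prod.ext (h.lift_mul x y) (h'.lift_mul x y)⟩
      star_mem' := by
        rintro _ ⟨x, rfl⟩
        exact ⟨star x, Prod.ext (h.lift_star x) (h'.lift_star x)⟩ }
  have hcl : IsClosed (R.topologicalClosure : Set (B × P)) :=
    NonUnitalStarSubalgebra.isClosed_topologicalClosure _
  let _ := NonUnitalStarSubalgebra.nonUnitalCStarAlgebra R.topologicalClosure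
  let q : R.topologicalClosure →⋆ₙₐ[ℂ] B :=
    (NonUnitalStarAlgHom.fst ℂ B P).comp (NonUnitalStarSubalgebraClass.subtype _)
  have hq : Function.Injective q := by
    rw [injective_iff_map_eq_zero]
    rintro ⟨y, hy⟩ hy1
    have h1 : y.1 = 0 := hy1
    refine Subtype.ext (Prod.ext h1 ?_)
    by_contra h2
    obtain ⟨G, f, g, hG, hT⟩ := hs y.2 h2
    have h3 : ∀ w ∈ closure (R : Set (B × P)), ‖G w.2‖ ≤ ‖f‖ * ‖g‖ * ‖w.1‖ := by
      intro w hw
      refine closure_minimal (t := {w : B × P | ‖G w.2‖ ≤ ‖f‖ * ‖g‖ * ‖w.1‖}) ?_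
        (isClosed_le (by fun_prop) (by fun_prop)) hw
      rintro _ ⟨x, rfl⟩
      have h4 : G (TensorProduct.lift T' x) = fg f g x := by
        induction x with
        | zero => simp
        | add x y hx hy => rw [map_add, map_add, map_add, hx, hy]
        | tmul a z => rw [TensorProduct.lift.tmul, hT, fg_tmul]
      change ‖G (TensorProduct.lift T' x)‖ ≤ _
      rw [h4]
      exact hb f g x
    have h5 := h3 y hy
    rw [h1, norm_zero, mul_zero] at h5
    exact hG (norm_le_zero_iff.1 h5)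
  have h6 := NonUnitalStarAlgHom.norm_map q hq
    ⟨L x, NonUnitalStarSubalgebra.le_topologicalClosure _ ⟨x, rfl⟩⟩
  exact (norm_snd_le (L x)).trans h6.ge

theorem exists_hom {T : A →ₗ[ℂ] Z →ₗ[ℂ] B} {T' : A →ₗ[ℂ] Z →ₗ[ℂ] P} (h : MS T) (h' : MS T')
    (hd : DenseRange (TensorProduct.lift T))
    (hle : ∀ x, ‖TensorProduct.lift T' x‖ ≤ ‖TensorProduct.lift T x‖) :
    ∃ Θ : B →⋆ₙₐ[ℂ] P, ∀ x, Θ (TensorProduct.lift T x) = TensorProduct.lift T' x := by
  let β : B →L[ℂ] P := (TensorProduct.lift T').extendOfNorm (TensorProduct.lift T)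
  have hβ : ∀ x, β (TensorProduct.lift T x) = TensorProduct.lift T' x := fun x =>
    LinearMap.extendOfNorm_eq hd ⟨1, fun x => by simpa using hle x⟩ x
  refine ⟨{ toFun := β
            map_smul' := map_smul β
            map_zero' := map_zero β
            map_add' := map_add β
            map_mul' := fun b c => ?_
            map_star' := fun b => ?_ }, hβ⟩
  · refine hd.induction_on₂ (p := fun b c => β (b * c) = β b * β c)
      (isClosed_eq (by fun_prop) (by fun_prop)) (fun x y => ?_) b c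
    rw [← h.lift_mul, hβ, hβ, hβ, h'.lift_mul]
  · refine hd.induction_on (p := fun b => β (star b) = star (β b)) b
      (isClosed_eq (by fun_prop) (by fun_prop)) fun x => ?_
    rw [← h.lift_star, hβ, hβ, h'.lift_star]

theorem exists_equiv {T : A →ₗ[ℂ] Z →ₗ[ℂ] B} {T' : A →ₗ[ℂ] Z →ₗ[ℂ] P} (h : MS T) (h' : MS T')
    (hd : DenseRange (TensorProduct.lift T)) (hd' : DenseRange (TensorProduct.lift T'))
    (he : ∀ x, ‖TensorProduct.lift T' x‖ = ‖TensorProduct.lift T x‖) :
    ∃ Θ : B ≃⋆ₐ[ℂ] P, ∀ a z, Θ (T a z) = T' a z := by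
  obtain ⟨Θ, hΘ⟩ := exists_hom h h' hd fun x => (he x).le
  obtain ⟨Θ', hΘ'⟩ := exists_hom h' h hd' fun x => (he x).ge
  have c1 : Continuous Θ := (hc Θ).continuous
  have c2 : Continuous Θ' := (hc Θ').continuous
  refine ⟨{ toFun := Θ
            invFun := Θ'
            left_inv := fun b => ?_
            right_inv := fun b => ?_
            map_mul' := map_mul Θ
            map_add' := map_add Θ
            map_star' := map_star Θ
            map_smul' := map_smul Θ }, fun a z => ?_⟩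
  · refine hd.induction_on (p := fun b => Θ' (Θ b) = b) b
      (isClosed_eq (by fun_prop) continuous_id) fun x => by rw [hΘ, hΘ']
  · refine hd'.induction_on (p := fun b => Θ (Θ' b) = b) b
      (isClosed_eq (by fun_prop) continuous_id) fun x => by rw [hΘ', hΘ]
  · have := hΘ (a ⊗ₜ z)
    rwa [TensorProduct.lift.tmul, TensorProduct.lift.tmul] at this

end alg

end Vale.Agent.P095L
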