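import Vale.Agent.P095L58.A
import Vale.Agent.P070ZQ.GN

/-! The spatial tensor product: existence, uniqueness, functoriality. -/

set_option linter.unusedSectionVars false

open Filter Topology UniformSpace
open scoped TensorProduct

namespace Vale.Agent.P095L

universe u

variable {A Z : Type u} [NonUnitalCStarAlgebra A] [NonUnitalCStarAlgebra Z]
  {B : Type u} [NonUnitalCStarAlgebra B] {P : Type u} [NonUnitalCStarAlgebra P]

/-- the product of two maps -/
noncomputable def bl (f : A →⋆ₙₐ[ℂ] P) (g : Z →⋆ₙₐ[ℂ] P) : A →ₗ[ℂ] Z →ₗ[ℂ] P :=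
  LinearMap.mk₂ ℂ (fun a z => f a * g z)
    (fun a a' z => by rw [map_add, add_mul]) (fun c a z => by rw [map_smul, smul_mul_assoc])
    (fun a z z' => by rw [map_add, mul_add]) (fun c a z => by rw [map_smul, mul_smul_comm])

theorem bl_apply (f : A →⋆ₙₐ[ℂ] P) (g : Z →⋆ₙₐ[ℂ] P) (a : A) (z : Z) : bl f g a z = f a * g z := rfl

theorem bl_ms {f : A →⋆ₙₐ[ℂ] P} {g : Z →⋆ₙₐ[ℂ] P} (h : ∀ a z, Commute (f a) (g z)) :
    MS (bl f g) := by
  refine ⟨fun a a' z z' => ?_, fun a z => ?_⟩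
  · rw [bl_apply, bl_apply, bl_apply, map_mul, map_mul, mul_assoc, mul_assoc,
      ← mul_assoc (f a') (g z), (h a' z).eq, mul_assoc]
  · rw [bl_apply, bl_apply, star_mul, ← map_star, ← map_star]
    exact (h _ _).eq

theorem lift_map (σ : B →⋆ₙₐ[ℂ] P) {T : A →ₗ[ℂ] Z →ₗ[ℂ] B} {T' : A →ₗ[ℂ] Z →ₗ[ℂ] P}
    (h : ∀ a z, σ (T a z) = T' a z) (x : A ⊗[ℂ] Z) :
    σ (TensorProduct.lift T x) = TensorProduct.lift T' x := by
  induction x with
  | zero => rw [map_zero, map_zero, map_zero]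
  | add x y hx hy => rw [map_add, map_add, map_add, hx, hy]
  | tmul a z => rw [TensorProduct.lift.tmul, TensorProduct.lift.tmul, h]

section sp

variable {H K : Type u} [NormedAddCommGroup H] [InnerProductSpace ℂ H] [CompleteSpace H]
  [NormedAddCommGroup K] [InnerProductSpace ℂ K] [CompleteSpace K]
  (π : A →⋆ₙₐ[ℂ] (H →L[ℂ] H)) (ρ : Z →⋆ₙₐ[ℂ] (K →L[ℂ] K))

/-- `π a ⊗ ρ z` -/
noncomputable def sp : A →ₗ[ℂ] Z →ₗ[ℂ] (HT H K →L[ℂ] HT H K) :=
  bl (P := HT H K →L[ℂ] HT H K) ((lA K).toNonUnitalStarAlgHom.comp π)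
    ((rA H).toNonUnitalStarAlgHom.comp ρ)

theorem sp_apply (a : A) (z : Z) : sp π ρ a z = lA K (π a) * rA H (ρ z) := rfl

theorem sp_tt (a : A) (z : Z) (h : H) (k : K) :
    sp π ρ a z (tt h k) = tt (π a h) (ρ z k) := lr_tt _ _ _ _

theorem sp_ms : MS (B := HT H K →L[ℂ] HT H K) (sp π ρ) :=
  bl_ms fun _ _ => lr_comm _ _

theorem sp_om (h h' : H) (k k' : K) (a : A) (z : Z) : om (tt h k) (tt h' k') (sp π ρ a z) =
    (om h h').comp (hc π) a * (om k k').comp (hc ρ) z := by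
  rw [om_apply, sp_tt, inner_tt]
  rfl

theorem sp_sep : Sep (B := HT H K →L[ℂ] HT H K) (sp π ρ) := by
  intro y hy
  by_contra hn
  refine hy (op_zero fun a b a' b' => ?_)
  by_contra h1
  exact hn ⟨om (tt a b) (tt a' b'), _, _, h1, sp_om π ρ a a' b b'⟩

theorem sp_bd (hπ : Function.Injective π) (hρ : Function.Injective ρ) :
    Bd (B := HT H K →L[ℂ] HT H K) (sp π ρ) := by
  intro f g x
  have h1 : ∀ h h' k k', om (tt h k) (tt h' k') (TensorProduct.lift (sp π ρ) x) =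
      fg ((om h h').comp (hc π)) ((om k k').comp (hc ρ)) x := by
    intro h h' k k'
    induction x with
    | zero => rw [map_zero, map_zero, map_zero]
    | add x y hx hy => rw [map_add, map_add, map_add, hx, hy]
    | tmul a z => rw [TensorProduct.lift.tmul, sp_om, fg_tmul]
  change _ ≤ _ * ‖(TensorProduct.lift (sp π ρ) x : HT H K →L[ℂ] HT H K)‖
  generalize (TensorProduct.lift (sp π ρ) x : HT H K →L[ℂ] HT H K) = X at h1 ⊢
  set N := ‖X‖ with hN
  have hN0 : 0 ≤ N := norm_nonneg X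
  have h2 : ∀ h h', ‖sl ((om h h').comp (hc π)) x‖ ≤ N * (‖h‖ * ‖h'‖) := by
    intro h h'
    rw [← NonUnitalStarAlgHom.norm_map ρ hρ]
    refine norm_le_of_om (by positivity) fun k k' => ?_
    have h3 := sl_fg ((om h h').comp (hc π)) ((om k k').comp (hc ρ)) x
    rw [← h1] at h3
    refine (congrArg norm h3).le.trans ((norm_om_le _ _ _).trans (le_of_eq ?_))
    rw [norm_tt, norm_tt]
    ring
  have h4 : ‖sr g x‖ ≤ ‖g‖ * N := by
    rw [← NonUnitalStarAlgHom.norm_map π hπ]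
    refine norm_le_of_om (by positivity) fun h h' => ?_
    have h3 := (sr_fg ((om h h').comp (hc π)) g x).trans (sl_fg _ g x).symm
    refine (congrArg norm h3).le.trans ((g.le_opNorm _).trans ?_)
    rw [mul_assoc]
    exact mul_le_mul_of_nonneg_left (h2 h h') (norm_nonneg _)
  rw [← sr_fg, mul_assoc]
  exact (f.le_opNorm _).trans (mul_le_mul_of_nonneg_left h4 (norm_nonneg _))

end sp

variable {T : A →ₗ[ℂ] Z →ₗ[ℂ] B}

theorem IsSpatial.props (h : IsSpatial T) : MS T ∧ Sep T ∧ Bd T := by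
  obtain ⟨-, H, K, _, _, _, _, _, _, π, ρ, σ, hπ, hρ, hσ, hT⟩ := h
  have h1 : ∀ a z, σ (T a z) = sp π ρ a z := fun a z =>
    op_ext fun h k => (hT a z h k).trans (sp_tt π ρ a z h k).symm
  refine ⟨⟨fun a a' z z' => hσ ?_, fun a z => hσ ?_⟩, fun y hy => ?_, fun f g x => ?_⟩
  · rw [map_mul σ, h1, h1, h1, (sp_ms π ρ).mul]
  · rw [map_star σ, h1, h1, (sp_ms π ρ).star]
  · obtain ⟨G, f, g, hG, hT'⟩ := sp_sep π ρ (σ y) fun h0 => hy (hσ (h0.trans (map_zero σ).symm))
    exact ⟨G.comp (hc σ), f, g, hG, fun a z => by rw [← hT', ← h1]; rfl⟩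
  · rw [← NonUnitalStarAlgHom.norm_map σ hσ, lift_map (P := HT H K →L[ℂ] HT H K) σ h1]
    exact sp_bd π ρ hπ hρ f g x

theorem IsSpatial.ms (h : IsSpatial T) : MS T := h.props.1

theorem IsSpatial.inj (h : IsSpatial T) : Function.Injective (TensorProduct.lift T) := by
  rw [injective_iff_map_eq_zero]
  intro x hx
  refine eq_zero_of_fg x fun f g => ?_
  have := h.props.2.2 f g x
  rwa [hx, norm_zero, mul_zero, norm_le_zero_iff] at this

/-- the universal property in the form used below -/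
theorem IsSpatial.hom (h : IsSpatial T) {T' : A →ₗ[ℂ] Z →ₗ[ℂ] P} (h' : MS T') (hs : Sep T') :
    ∃ Θ : B →⋆ₙₐ[ℂ] P, ∀ a z, Θ (T a z) = T' a z := by
  obtain ⟨Θ, hΘ⟩ := exists_hom h.ms h' h.1 (dom h.ms h' h.props.2.2 hs)
  refine ⟨Θ, fun a z => ?_⟩
  have := hΘ (a ⊗ₜ z)
  rwa [TensorProduct.lift.tmul, TensorProduct.lift.tmul] at this

theorem IsSpatial.unique (h : IsSpatial T) {T' : A →ₗ[ℂ] Z →ₗ[ℂ] P} (h' : IsSpatial T') :
    ∃ Θ : B ≃⋆ₐ[ℂ] P, ∀ a z, Θ (T a z) = T' a z :=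
  exists_equiv h.ms h'.ms h.1 h'.1 fun x => le_antisymm (dom h.ms h'.ms h.props.2.2 h'.props.2.1 x)
    (dom h'.ms h.ms h'.props.2.2 h.props.2.1 x)

theorem exists_rep (A : Type u) [NonUnitalCStarAlgebra A] :
    ∃ (L : Type u) (_ : NormedAddCommGroup L) (_ : InnerProductSpace ℂ L) (_ : CompleteSpace L)
      (π : A →⋆ₙₐ[ℂ] (L →L[ℂ] L)), Function.Injective π := by
  obtain ⟨L, _, _, _, π, hπ⟩ := P070ZQ.exists_faithful_rep (Unitization ℂ A)
  exact ⟨L, inferInstance, inferInstance, inferInstance,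
    (π : Unitization ℂ A →⋆ₙₐ[ℂ] (L →L[ℂ] L)).comp (Unitization.inrNonUnitalStarAlgHom ℂ A),
    hπ.comp Unitization.inr_injective⟩

theorem exists_closure {T : A →ₗ[ℂ] Z →ₗ[ℂ] P} (h : MS T) :
    ∃ (B : Type u) (_ : NonUnitalCStarAlgebra B) (T' : A →ₗ[ℂ] Z →ₗ[ℂ] B) (σ : B →⋆ₙₐ[ℂ] P),
      DenseRange (TensorProduct.lift T') ∧ Function.Injective σ ∧ ∀ a z, σ (T' a z) = T a z := by
  let R : NonUnitalStarSubalgebra ℂ P :=
    { carrier := LinearMap.range (TensorProduct.lift T)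
      add_mem' := fun ha hb => Submodule.add_mem _ ha hb
      zero_mem' := Submodule.zero_mem _
      smul_mem' := fun c _ hx => Submodule.smul_mem _ c hx
      mul_mem' := by
        rintro _ _ ⟨x, rfl⟩ ⟨y, rfl⟩
        exact ⟨x * y, h.lift_mul x y⟩
      star_mem' := by
        rintro _ ⟨x, rfl⟩
        exact ⟨star x, h.lift_star x⟩ }
  have hcl : IsClosed (R.topologicalClosure : Set P) :=
    NonUnitalStarSubalgebra.isClosed_topologicalClosure _
  let _ := NonUnitalStarSubalgebra.nonUnitalCStarAlgebra R.topologicalClosure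
  have hmem : ∀ a z, T a z ∈ R.topologicalClosure := fun a z =>
    NonUnitalStarSubalgebra.le_topologicalClosure _ ⟨a ⊗ₜ z, TensorProduct.lift.tmul _ _⟩
  let T' : A →ₗ[ℂ] Z →ₗ[ℂ] R.topologicalClosure :=
    LinearMap.mk₂ ℂ (fun a z => ⟨T a z, hmem a z⟩)
      (fun a a' z => Subtype.ext (by simp)) (fun c a z => Subtype.ext (by simp))
      (fun a z z' => Subtype.ext (by simp)) (fun c a z => Subtype.ext (by simp))
  let σ : R.topologicalClosure →⋆ₙₐ[ℂ] P := NonUnitalStarSubalgebraClass.subtype _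
  refine ⟨R.topologicalClosure, inferInstance, T', σ, fun z => ?_, Subtype.val_injective,
    fun a z => rfl⟩
  rw [Metric.mem_closure_iff]
  intro ε hε
  obtain ⟨w, ⟨x, hx⟩, hw⟩ := Metric.mem_closure_iff.mp z.2 ε hε
  refine ⟨_, ⟨x, rfl⟩, ?_⟩
  rw [Subtype.dist_eq]
  refine lt_of_eq_of_lt ?_ hw
  congr 1
  rw [← hx]
  exact lift_map σ (T := T') (fun a z => rfl) x

theorem exists_spatial (A Z : Type u) [NonUnitalCStarAlgebra A] [NonUnitalCStarAlgebra Z] :
    ∃ (B : Type u) (_ : NonUnitalCStarAlgebra B) (T : A →ₗ[ℂ] Z →ₗ[ℂ] B), IsSpatial T := by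
  obtain ⟨H, _, _, _, π, hπ⟩ := exists_rep A
  obtain ⟨K, _, _, _, ρ, hρ⟩ := exists_rep Z
  obtain ⟨B, _, T, σ, hd, hσ, hT⟩ := exists_closure (sp_ms π ρ)
  exact ⟨B, inferInstance, T, hd, H, K, inferInstance, inferInstance, inferInstance, inferInstance,
    inferInstance, inferInstance, π, ρ, σ, hπ, hρ, hσ, fun a z h k => by
      rw [hT]; exact sp_tt π ρ a z h k⟩

theorem IsSpatial.aut (h : IsSpatial T) (α : A ≃⋆ₐ[ℂ] A) :
    ∃ β : B ≃⋆ₐ[ℂ] B, ∀ a z, β (T a z) = T (α a) z := by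
  have h' : IsSpatial (T ∘ₗ (clm α).toLinearMap) := by
    obtain ⟨hd, H, K, _, _, _, _, _, _, π, ρ, σ, hπ, hρ, hσ, hT⟩ := h
    refine ⟨?_, H, K, inferInstance, inferInstance, inferInstance, inferInstance, inferInstance,
      inferInstance, π.comp (α : A →⋆ₙₐ[ℂ] A), ρ, σ, hπ.comp α.injective, hρ, hσ,
      fun a z h k => hT (α a) z h k⟩
    refine hd.mono ?_
    rintro _ ⟨x, rfl⟩
    induction x with
    | zero => exact ⟨0, by rw [map_zero, map_zero]⟩
    | add x y hx hy =>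
      obtain ⟨x', hx'⟩ := hx
      obtain ⟨y', hy'⟩ := hy
      exact ⟨x' + y', by rw [map_add, map_add, hx', hy']⟩
    | tmul a z =>
      refine ⟨α.symm a ⊗ₜ z, ?_⟩
      rw [TensorProduct.lift.tmul, TensorProduct.lift.tmul]
      change T (α (α.symm a)) z = _
      rw [α.apply_symm_apply]
  exact h.unique h'

theorem aut_ext (hd : DenseRange (TensorProduct.lift T)) {f g : B ≃⋆ₐ[ℂ] B}
    (h : ∀ a z, f (T a z) = g (T a z)) : f = g := by
  refine DFunLike.coe_injective (hd.equalizer (clm f).continuous (clm g).continuous ?_)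
  funext x
  change f (TensorProduct.lift T x) = g (TensorProduct.lift T x)
  induction x with
  | zero => simp
  | add x y hx hy => rw [map_add, map_add, map_add, hx, hy]
  | tmul a z => rw [TensorProduct.lift.tmul]; exact h a z

theorem IsSpatial.act (h : IsSpatial T) {G : Type} [Group G] (α : G →* (A ≃⋆ₐ[ℂ] A)) :
    ∃! β : G →* (B ≃⋆ₐ[ℂ] B), ∀ g a z, β g (T a z) = T (α g a) z := by
  choose b hb using h.aut
  refine ⟨{ toFun := fun g => b (α g)
            map_one' := aut_ext h.1 fun a z => by rw [hb, map_one]; rfl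
            map_mul' := fun g k => aut_ext h.1 fun a z => by
              rw [hb, map_mul]
              change _ = b (α g) (b (α k) (T a z))
              rw [hb, hb]
              rfl }, fun g a z => hb _ _ _, fun β hβ => ?_⟩
  ext1 g
  exact aut_ext h.1 fun a z => (hβ g a z).trans (hb _ _ _).symm

end Vale.Agent.P095L
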