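import Vale.Agent.P095L58.B
import Vale.Agent.P095J.StmtAbs

/-! Strongly self-absorbing algebras have approximately inner half-flip. -/

set_option linter.unusedSectionVars false

open Filter Topology UniformSpace
open scoped TensorProduct

namespace Vale.Agent.P095L

universe u

section aue

variable {D : Type u} {B C : Type u} [CStarAlgebra B] [CStarAlgebra C]

theorem norm_conj {v : B} (hv : v ∈ unitary B) (x : B) : ‖v * x * star v‖ = ‖x‖ := by
  rw [CStarRing.norm_mul_mem_unitary _ (Unitary.star_mem hv), CStarRing.norm_mem_unitary_mul _ hv]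

/-- approximate unitary equivalence -/
def AUE (f g : D → B) : Prop :=
  ∀ (S : Finset D) (ε : ℝ), 0 < ε → ∃ v ∈ unitary B, ∀ x ∈ S, ‖v * f x * star v - g x‖ < ε

theorem AUE.symm {f g : D → B} (h : AUE f g) : AUE g f := by
  intro S ε hε
  obtain ⟨v, hv, h⟩ := h S ε hε
  refine ⟨star v, Unitary.star_mem hv, fun x hx => ?_⟩
  have h1 : v * star v = 1 := (Unitary.mem_iff.1 hv).2
  rw [← norm_conj hv, star_star, mul_sub, sub_mul, ← mul_assoc, ← mul_assoc, h1, one_mul,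
    mul_assoc, h1, mul_one, norm_sub_rev]
  exact h x hx

theorem AUE.trans {f g k : D → B} (h : AUE f g) (h' : AUE g k) : AUE f k := by
  intro S ε hε
  obtain ⟨v, hv, h⟩ := h S (ε / 2) (by positivity)
  obtain ⟨w, hw, h'⟩ := h' S (ε / 2) (by positivity)
  refine ⟨w * v, mul_mem hw hv, fun x hx => ?_⟩
  have h1 : w * v * f x * star (w * v) - k x =
      w * (v * f x * star v - g x) * star w + (w * g x * star w - k x) := by
    rw [star_mul]; noncomm_ring
  rw [h1]
  refine (norm_add_le _ _).trans_lt ?_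
  rw [norm_conj hw]
  linarith [h x hx, h' x hx]

theorem AUE.comp {f g : D → B} (h : AUE f g) (k : D → D) : AUE (fun x => f (k x)) fun x => g (k x) := by
  classical
  intro S ε hε
  obtain ⟨v, hv, h⟩ := h (S.image k) ε hε
  exact ⟨v, hv, fun x hx => h _ (Finset.mem_image_of_mem _ hx)⟩

theorem map_unitary (Θ : B →⋆ₙₐ[ℂ] C) (h1 : Θ 1 = 1) {v : B} (hv : v ∈ unitary B) :
    Θ v ∈ unitary C := by
  rw [Unitary.mem_iff] at hv ⊢
  rw [← map_star, ← map_mul, ← map_mul, hv.1, hv.2, h1]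
  exact ⟨rfl, rfl⟩

theorem map_est (Θ : B →⋆ₙₐ[ℂ] C) (v a b : B) :
    ‖Θ v * Θ a * star (Θ v) - Θ b‖ ≤ ‖v * a * star v - b‖ := by
  rw [← map_star, ← map_mul, ← map_mul, ← map_sub]
  exact NonUnitalStarAlgHom.norm_apply_le Θ _

theorem AUE.map {f g : D → B} (h : AUE f g) (Θ : B →⋆ₙₐ[ℂ] C) (h1 : Θ 1 = 1) {f' g' : D → C}
    (hf : ∀ x, Θ (f x) = f' x) (hg : ∀ x, Θ (g x) = g' x) : AUE f' g' := by
  intro S ε hε
  obtain ⟨v, hv, h⟩ := h S ε hε
  refine ⟨Θ v, map_unitary Θ h1 hv, fun x hx => ?_⟩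
  rw [← hf, ← hg]
  exact (map_est Θ _ _ _).trans_lt (h x hx)

end aue

theorem norm_eq_of {A D C : Type u} [NonUnitalCStarAlgebra A] [NonUnitalCStarAlgebra D]
    [CStarAlgebra C] (a : A →⋆ₙₐ[ℂ] C) (f g : D →⋆ₙₐ[ℂ] C)
    (h : ∀ (S : Finset D) (ε : ℝ), 0 < ε → ∃ v ∈ unitary C, (∀ x, Commute v (a x)) ∧
      ∀ x ∈ S, ‖v * f x * star v - g x‖ < ε) (x : A ⊗[ℂ] D) :
    ‖TensorProduct.lift (bl a f) x‖ = ‖TensorProduct.lift (bl a g) x‖ := by
  classical
  have key : ∃ (S : Finset D) (M : ℝ), 0 ≤ M ∧ ∀ (v : C) (δ : ℝ), (∀ x, Commute v (a x)) →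
      (∀ z ∈ S, ‖v * f z * star v - g z‖ < δ) → 0 < δ →
      ‖v * TensorProduct.lift (bl a f) x * star v - TensorProduct.lift (bl a g) x‖ ≤ M * δ := by
    induction x with
    | zero => exact ⟨∅, 0, le_rfl, fun v δ _ _ _ => by simp⟩
    | add x y hx hy =>
      obtain ⟨S, M, hM, hx⟩ := hx
      obtain ⟨S', M', hM', hy⟩ := hy
      refine ⟨S ∪ S', M + M', add_nonneg hM hM', fun v δ h1 h2 h3 => ?_⟩
      rw [map_add, map_add, mul_add, add_mul, add_sub_add_comm, add_mul]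
      exact (norm_add_le _ _).trans (add_le_add
        (hx v δ h1 (fun z hz => h2 z (Finset.mem_union_left _ hz)) h3)
        (hy v δ h1 (fun z hz => h2 z (Finset.mem_union_right _ hz)) h3))
    | tmul b z =>
      refine ⟨{z}, ‖a b‖, norm_nonneg _, fun v δ h1 h2 _ => ?_⟩
      rw [TensorProduct.lift.tmul, TensorProduct.lift.tmul, bl_apply, bl_apply, ← mul_assoc,
        (h1 b).eq, mul_assoc (a b), mul_assoc (a b), ← mul_sub]
      exact (norm_mul_le _ _).trans (mul_le_mul_of_nonneg_left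
        (h2 z (Finset.mem_singleton_self z)).le (norm_nonneg _))
  obtain ⟨S, M, hM, key⟩ := key
  refine eq_of_forall_dist_le fun ε hε => ?_
  obtain ⟨v, hv, h1, h2⟩ := h S (ε / (M + 1)) (by positivity)
  have h3 := key v _ h1 h2 (by positivity)
  rw [← norm_conj hv]
  refine (dist_norm_norm_le _ _).trans (h3.trans ?_)
  rw [mul_div_assoc', div_le_iff₀ (by positivity)]
  nlinarith

section unital

variable {A Z E : Type u} [CStarAlgebra A] [CStarAlgebra Z] [CStarAlgebra E]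
  {T : A →ₗ[ℂ] Z →ₗ[ℂ] E}

theorem IsSpatial.one (h : IsSpatial T) : T 1 1 = 1 := by
  have h1 : ∀ e : E, T 1 1 * e = e := fun e => by
    refine h.1.induction_on (p := fun e => T 1 1 * e = e) e
      (isClosed_eq (by fun_prop) continuous_id) fun x => ?_
    have := h.ms.lift_mul (1 ⊗ₜ 1) x
    rw [TensorProduct.lift.tmul, ← Algebra.TensorProduct.one_def, one_mul] at this
    exact this.symm
  simpa using h1 1

/-- the first factor -/
noncomputable def IsSpatial.iL (h : IsSpatial T) : A →⋆ₐ[ℂ] E where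
  toFun a := T a 1
  map_one' := h.one
  map_mul' a b := by rw [← h.ms.mul, mul_one]
  map_zero' := by simp
  map_add' a b := by simp
  commutes' c := by
    rw [Algebra.algebraMap_eq_smul_one, Algebra.algebraMap_eq_smul_one, map_smul,
      LinearMap.smul_apply, h.one]
  map_star' a := by rw [← h.ms.star, star_one]

/-- the second factor -/
noncomputable def IsSpatial.iR (h : IsSpatial T) : Z →⋆ₐ[ℂ] E where
  toFun a := T 1 a
  map_one' := h.one
  map_mul' a b := by rw [← h.ms.mul, mul_one]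
  map_zero' := by simp
  map_add' a b := by simp
  commutes' c := by
    rw [Algebra.algebraMap_eq_smul_one, Algebra.algebraMap_eq_smul_one, map_smul, h.one]
  map_star' a := by rw [← h.ms.star, star_one]

theorem IsSpatial.completion (h : IsSpatial T) : P101.IsTensorCompletion h.iL h.iR := by
  have hm : ∀ a z, h.iL a * h.iR z = T a z := fun a z => by
    change T a 1 * T 1 z = _
    rw [← h.ms.mul, mul_one, one_mul]
  have hc : ∀ a z, Commute (h.iL a) (h.iR z) := fun a z => by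
    change T a 1 * T 1 z = T 1 z * T a 1
    rw [← h.ms.mul, ← h.ms.mul, mul_one, one_mul, mul_one, one_mul]
  have key : (Algebra.TensorProduct.lift (h.iL : A →ₐ[ℂ] E) (h.iR : Z →ₐ[ℂ] E) hc :
      A ⊗[ℂ] Z → E) = TensorProduct.lift T := by
    funext x
    induction x with
    | zero => rw [map_zero, map_zero]
    | add x y hx hy => rw [map_add, map_add, hx, hy]
    | tmul a z =>
      rw [Algebra.TensorProduct.lift_tmul, TensorProduct.lift.tmul]
      exact hm a z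
  exact ⟨hc, by rw [key]; exact h.inj, by rw [key]; exact h.1⟩

end unital

section flip

variable {D E : Type u} [CStarAlgebra D] [CStarAlgebra E] {T : D →ₗ[ℂ] D →ₗ[ℂ] E}

theorem half_flip_min (h : IsSpatial T) (φ : D ≃⋆ₐ[ℂ] E) (ha : AUE φ fun x => T x 1) :
    AUE (fun x => T x 1) fun x => T 1 x := by
  let ψ : D →⋆ₐ[ℂ] D := (φ.symm : E →⋆ₐ[ℂ] D).comp h.iR
  have hb : AUE (fun x => T 1 x) fun x => T (ψ x) 1 := by
    have h3 : (fun x => φ (ψ x)) = fun x => T 1 x := funext fun x => φ.apply_symm_apply _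
    rw [← h3]
    exact ha.comp ψ
  obtain ⟨F, hF⟩ := h.hom (T' := T.flip) ⟨fun a a' z z' => h.ms.mul _ _ _ _,
    fun a z => h.ms.star _ _⟩ fun y hy => by
      obtain ⟨G, f, g, h1, h2⟩ := h.props.2.1 y hy
      exact ⟨G, g, f, h1, fun a z => (h2 z a).trans (mul_comm _ _)⟩
  obtain ⟨Θ, hΘ⟩ := h.hom (T' := T ∘ₗ (hc ψ.toNonUnitalStarAlgHom).toLinearMap)
    ⟨fun a a' z z' => by
      change T (ψ (a * a')) _ = T (ψ a) _ * T (ψ a') _
      rw [map_mul ψ, h.ms.mul], fun a z => by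
      change T (ψ (star a)) _ = star (T (ψ a) _)
      rw [map_star ψ, h.ms.star]⟩ fun y hy => by
      obtain ⟨G, f, g, h1, h2⟩ := h.props.2.1 y hy
      exact ⟨G, f.comp (hc ψ.toNonUnitalStarAlgHom), g, h1, fun a z => h2 (ψ a) z⟩
  have hΘ' : ∀ a z, Θ (T a z) = T (ψ a) z := hΘ
  have hF1 : F 1 = 1 := by rw [← h.one, hF]; rfl
  have hΘ1 : Θ 1 = 1 := by rw [← h.one, hΘ', map_one ψ]
  have hc : AUE (fun x => T x 1) fun x => T 1 (ψ x) :=
    hb.map F hF1 (fun x => hF _ _) fun x => hF _ _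
  have hd : AUE (fun x => T (ψ x) 1) fun x => T 1 (ψ x) :=
    hc.map Θ hΘ1 (fun x => hΘ' _ _) fun x => by rw [hΘ', map_one ψ]
  exact hc.trans (hb.trans hd).symm

theorem comm_of_dense {C : Type u} [CStarAlgebra C] (h : DenseRange (TensorProduct.lift T))
    (Θ : E →⋆ₙₐ[ℂ] C) (c : C) (hc : ∀ a z, Commute (Θ (T a z)) c) (e : E) : Commute (Θ e) c := by
  have c1 : Continuous Θ := (P095L.hc Θ).continuous
  refine h.induction_on (p := fun e => Θ e * c = c * Θ e) e
    (isClosed_eq (by fun_prop) (by fun_prop)) fun y => ?_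
  induction y with
  | zero => rw [map_zero, map_zero, zero_mul, mul_zero]
  | add y y' hy hy' => rw [map_add, map_add, add_mul, mul_add, hy, hy']
  | tmul a z => rw [TensorProduct.lift.tmul]; exact hc a z

theorem norm_bl_comp {A B C : Type u} [CStarAlgebra A] [CStarAlgebra B] [CStarAlgebra C]
    (l : B →⋆ₐ[ℂ] C) (hl : Function.Injective l) (φ : A →⋆ₐ[ℂ] B) (ψ : D →⋆ₐ[ℂ] B) (x : A ⊗[ℂ] D) :
    ‖TensorProduct.lift (bl φ.toNonUnitalStarAlgHom ψ.toNonUnitalStarAlgHom) x‖ =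
      ‖TensorProduct.lift (bl (l.comp φ).toNonUnitalStarAlgHom (l.comp ψ).toNonUnitalStarAlgHom) x‖ := by
  rw [← NonUnitalStarAlgHom.norm_map l.toNonUnitalStarAlgHom hl,
    lift_map l.toNonUnitalStarAlgHom (T' := bl (l.comp φ).toNonUnitalStarAlgHom
      (l.comp ψ).toNonUnitalStarAlgHom) fun a z => map_mul l _ _]

theorem norm_three {C : Type u} [CStarAlgebra C] (h : IsSpatial T)
    (ha : AUE (fun x => T x 1) fun x => T 1 x) (a f g : D →⋆ₐ[ℂ] C)
    (haf : ∀ x y, Commute (a x) (f y)) (hag : ∀ x y, Commute (a x) (g y))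
    (hfg : ∀ x y, Commute (f x) (g y))
    (s1 : Sep (bl f.toNonUnitalStarAlgHom g.toNonUnitalStarAlgHom))
    (s2 : Sep (bl a.toNonUnitalStarAlgHom g.toNonUnitalStarAlgHom)) (x : D ⊗[ℂ] D) :
    ‖TensorProduct.lift (bl a.toNonUnitalStarAlgHom f.toNonUnitalStarAlgHom) x‖ ≤
      ‖TensorProduct.lift T x‖ := by
  obtain ⟨Θ, hΘ⟩ := h.hom (bl_ms hfg) s1
  have hΘ' : ∀ a z, Θ (T a z) = f a * g z := hΘ
  have hΘ1 : Θ 1 = 1 := by rw [← h.one, hΘ', map_one, map_one, mul_one]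
  have hcm : ∀ x e, Commute (Θ e) (a x) := fun x =>
    comm_of_dense h.1 Θ _ fun b z => by
      rw [hΘ']
      exact (haf x b).symm.mul_left (hag x z).symm
  refine (norm_eq_of a.toNonUnitalStarAlgHom f.toNonUnitalStarAlgHom g.toNonUnitalStarAlgHom
    (fun S ε hε => ?_) x).le.trans (dom h.ms (bl_ms hag) h.props.2.2 s2 x)
  obtain ⟨v, hv, h1⟩ := ha S ε hε
  refine ⟨Θ v, map_unitary Θ hΘ1 hv, fun x => hcm x v, fun x hx => ?_⟩
  have h2 := (map_est Θ _ _ _).trans_lt (h1 x hx)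
  rw [hΘ', hΘ', map_one, map_one, mul_one, one_mul] at h2
  exact h2

theorem exists_amp (B D : Type u) [CStarAlgebra B] [CStarAlgebra D] [Nontrivial B] [Nontrivial D] :
    ∃ (C : Type u) (_ : CStarAlgebra C) (l : B →⋆ₐ[ℂ] C) (r : D →⋆ₐ[ℂ] C), Function.Injective l ∧
      (∀ x y, Commute (l x) (r y)) ∧ ∀ φ : D →⋆ₐ[ℂ] B,
        Sep (bl (l.comp φ).toNonUnitalStarAlgHom r.toNonUnitalStarAlgHom) ∧ (Function.Injective φ →
          Bd (bl (l.comp φ).toNonUnitalStarAlgHom r.toNonUnitalStarAlgHom)) := by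
  obtain ⟨H, _, _, _, κ, hκ⟩ := P070ZQ.exists_faithful_rep B
  obtain ⟨K, _, _, _, ρ, hρ⟩ := P070ZQ.exists_faithful_rep D
  have hK : Nontrivial K := by
    by_contra hK
    rw [not_nontrivial_iff_subsingleton] at hK
    exact one_ne_zero (hρ (ContinuousLinearMap.ext fun x => Subsingleton.elim _ _))
  refine ⟨HT H K →L[ℂ] HT H K, inferInstance, (lA K).comp κ, (rA H).comp ρ, lA_inj.comp hκ,
    fun x y => lr_comm _ _, fun φ => ?_⟩
  have e : bl (P := HT H K →L[ℂ] HT H K) (((lA K).comp κ).comp φ).toNonUnitalStarAlgHom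
      ((rA H).comp ρ).toNonUnitalStarAlgHom =
      sp (κ.comp φ).toNonUnitalStarAlgHom ρ.toNonUnitalStarAlgHom :=
    LinearMap.ext₂ fun a z => rfl
  rw [e]
  exact ⟨sp_sep _ _, fun hφ => sp_bd _ _ (hκ.comp hφ) hρ⟩

theorem half_flip (h : IsSpatial T) (ha : AUE (fun x => T x 1) fun x => T 1 x) (B : Type u)
    [CStarAlgebra B] : P101.HalfFlip D B := by
  refine ⟨fun φ ψ hc => ?_⟩
  rcases subsingleton_or_nontrivial B with hB | hB
  · exact fun S ε hε => ⟨1, one_mem _, fun x _ => by rwa [Subsingleton.elim (_ - _) 0, norm_zero]⟩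
  have hD : Nontrivial D := φ.toRingHom.domain_nontrivial
  obtain ⟨C, _, l, r, hl, hlr, hs⟩ := exists_amp B D
  have hms : MS (bl φ.toNonUnitalStarAlgHom ψ.toNonUnitalStarAlgHom) := bl_ms hc
  obtain ⟨Λ, hΛ⟩ := exists_hom h.ms hms h.1 fun x =>
    (norm_bl_comp l hl φ ψ x).le.trans (norm_three h ha _ _ r (fun x y => (hc x y).map l)
      (fun x y => hlr _ _) (fun x y => hlr _ _) (hs ψ).1 (hs φ).1 x)
  have hΛ' : ∀ a z, Λ (T a z) = φ a * ψ z := fun a z => by
    have := hΛ (a ⊗ₜ z)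
    rwa [TensorProduct.lift.tmul, TensorProduct.lift.tmul] at this
  exact ha.map Λ (by rw [← h.one, hΛ', map_one, map_one, mul_one])
    (fun x => by rw [hΛ', map_one, mul_one]) fun x => by rw [hΛ', map_one, one_mul]

end flip

end Vale.Agent.P095L
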