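import Vale.Agent.P095L58.C
import Vale.Agent.P095JS.All
import Vale.Agent.P095JS.Side095
import Vale.Agent.P095.H628.Stmt
import Vale.Agent.P215.Am.Mean

/-! Comparison with the notions of the earlier files. -/

set_option linter.unusedSectionVars false

open Filter Topology
open scoped TensorProduct MultiplierAlgebra

namespace Vale.Agent.P095L

universe u

theorem exists_closure_one {A Z P : Type u} [CStarAlgebra A] [CStarAlgebra Z] [CStarAlgebra P]
    {T : A →ₗ[ℂ] Z →ₗ[ℂ] P} (h : MS T) (h1 : T 1 1 = 1) :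
    ∃ (B : Type u) (_ : CStarAlgebra B) (T' : A →ₗ[ℂ] Z →ₗ[ℂ] B) (σ : B →⋆ₙₐ[ℂ] P),
      DenseRange (TensorProduct.lift T') ∧ Function.Injective σ ∧ ∀ a z, σ (T' a z) = T a z := by
  let R : StarSubalgebra ℂ P :=
    { carrier := LinearMap.range (TensorProduct.lift T)
      add_mem' := fun ha hb => Submodule.add_mem _ ha hb
      algebraMap_mem' := fun c => ⟨c • (1 ⊗ₜ 1), by
        rw [map_smul, TensorProduct.lift.tmul, h1, Algebra.algebraMap_eq_smul_one]⟩
      mul_mem' := by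
        rintro _ _ ⟨x, rfl⟩ ⟨y, rfl⟩
        exact ⟨x * y, h.lift_mul x y⟩
      star_mem' := by
        rintro _ ⟨x, rfl⟩
        exact ⟨star x, h.lift_star x⟩ }
  have hcl : IsClosed (R.topologicalClosure : Set P) := StarSubalgebra.isClosed_topologicalClosure _
  let _ := StarSubalgebra.cstarAlgebra R.topologicalClosure
  have hmem : ∀ a z, T a z ∈ R.topologicalClosure := fun a z =>
    StarSubalgebra.le_topologicalClosure _ ⟨a ⊗ₜ z, TensorProduct.lift.tmul _ _⟩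
  let T' : A →ₗ[ℂ] Z →ₗ[ℂ] R.topologicalClosure :=
    LinearMap.mk₂ ℂ (fun a z => ⟨T a z, hmem a z⟩)
      (fun a a' z => Subtype.ext (by simp)) (fun c a z => Subtype.ext (by simp))
      (fun a z z' => Subtype.ext (by simp)) (fun c a z => Subtype.ext (by simp))
  let σ : R.topologicalClosure →⋆ₙₐ[ℂ] P := (StarSubalgebra.subtype _).toNonUnitalStarAlgHom
  refine ⟨R.topologicalClosure, inferInstance, T', σ, fun z => ?_, Subtype.val_injective,
    fun a z => rfl⟩
  rw [Metric.mem_closure_iff]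
  intro ε hε
  obtain ⟨w, ⟨x, hx⟩, hw⟩ := Metric.mem_closure_iff.mp z.2 ε hε
  refine ⟨_, ⟨x, rfl⟩, ?_⟩
  rw [Subtype.dist_eq]
  refine lt_of_eq_of_lt ?_ hw
  congr 1
  rw [← hx]
  exact lift_map σ (T := T') (fun a z => rfl) x

theorem exists_spatial_one (A Z : Type u) [CStarAlgebra A] [CStarAlgebra Z] [Nontrivial A]
    [Nontrivial Z] : ∃ (B : Type u) (_ : CStarAlgebra B) (T : A →ₗ[ℂ] Z →ₗ[ℂ] B), IsSpatial T := by
  obtain ⟨H, _, _, _, π, hπ⟩ := P070ZQ.exists_faithful_rep A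
  obtain ⟨K, _, _, _, ρ, hρ⟩ := P070ZQ.exists_faithful_rep Z
  obtain ⟨B, _, T, σ, hd, hσ, hT⟩ := exists_closure_one (P := HT H K →L[ℂ] HT H K)
    (sp_ms π.toNonUnitalStarAlgHom ρ.toNonUnitalStarAlgHom) (by
      change lA K (π 1) * rA H (ρ 1) = 1
      rw [map_one, map_one, map_one, map_one, mul_one])
  exact ⟨B, inferInstance, T, hd, H, K, inferInstance, inferInstance, inferInstance, inferInstance,
    inferInstance, inferInstance, π.toNonUnitalStarAlgHom, ρ.toNonUnitalStarAlgHom, σ, hπ, hρ, hσ,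
    fun a z h k => by rw [hT]; exact sp_tt _ _ a z h k⟩

variable {Z : Type u} [CStarAlgebra Z]

/-- the limit property of the earlier files -/
def Lim (Z : Type u) [CStarAlgebra Z] : Prop :=
  ∃ (p q : ℕ → ℕ) (R : ℕ → StarSubalgebra ℂ Z), Monotone R ∧
    (∀ n, 0 < p n ∧ 0 < q n ∧ Nat.Coprime (p n) (q n) ∧ P101.IsDimDrop (p n) (q n) (R n)) ∧
    Dense (⋃ n, (R n : Set Z))

theorem isLimit_iff : IsLimit Z ↔ Lim Z := by
  constructor
  · rintro ⟨p, q, φ, ι, h, hd⟩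
    refine ⟨p, q, fun n => (ι n).range, monotone_nat_of_le_succ fun n => ?_, fun n =>
      ⟨(h n).1, (h n).2.1, (h n).2.2.1, ⟨I (p n) (q n), fun f => Iff.rfl,
        ⟨StarAlgEquiv.ofInjective (ι n) (h n).2.2.2.1⟩⟩⟩, hd⟩
    rintro _ ⟨x, rfl⟩
    exact ⟨φ n x, DFunLike.congr_fun (h n).2.2.2.2 x⟩
  · rintro ⟨p, q, R, hR, h, hd⟩
    have he : ∀ n, Nonempty (I (p n) (q n) ≃⋆ₐ[ℂ] R n) := fun n => by
      obtain ⟨S, hS, e⟩ := (h n).2.2.2.iso
      have : S = I (p n) (q n) := SetLike.ext hS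
      rwa [← this]
    let e : ∀ n, I (p n) (q n) ≃⋆ₐ[ℂ] R n := fun n => (he n).some
    refine ⟨p, q, fun n => ((e (n + 1)).symm : R (n + 1) →⋆ₐ[ℂ] I (p (n + 1)) (q (n + 1))).comp
      ((StarSubalgebra.inclusion (hR n.le_succ)).comp (e n : I (p n) (q n) →⋆ₐ[ℂ] R n)),
      fun n => (R n).subtype.comp (e n : I (p n) (q n) →⋆ₐ[ℂ] R n), fun n => ⟨(h n).1, (h n).2.1, (h n).2.2.1,
        fun x y hxy => (e n).injective (Subtype.ext hxy), StarAlgHom.ext fun x => ?_⟩, hd.mono ?_⟩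
    · exact congrArg Subtype.val ((e (n + 1)).apply_symm_apply _)
    · refine Set.iUnion_mono fun n z hz => ⟨(e n).symm ⟨z, hz⟩, ?_⟩
      exact congrArg Subtype.val ((e n).apply_symm_apply _)

theorem aue_of_tendsto {E : Type u} [CStarAlgebra E] {f g : Z → E} {v : ℕ → unitary E}
    (h : ∀ x, Tendsto (fun n => (v n : E) * f x * star (v n : E)) atTop (𝓝 (g x))) : AUE f g := by
  intro S ε hε
  obtain ⟨n, hn⟩ := ((S.eventually_all).2 fun x _ =>
    (Metric.tendsto_nhds.1 (h x) ε hε)).exists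
  exact ⟨v n, (v n).2, fun x hx => by simpa only [dist_eq_norm] using hn x hx⟩

theorem old_of_new (hl : IsLimit Z) (hs : IsSSA Z) : JS.IsJiangSuZ Z := by
  obtain ⟨E, _, T, φ, v, hT, hv⟩ := hs
  have ha := aue_of_tendsto hv
  exact JS.isJiangSuZ_of ⟨isLimit_iff.1 hl, half_flip hT (half_flip_min hT φ ha)⟩
    ⟨E, inferInstance, ⟨hT.iL, hT.iR, φ, hT.completion, ha⟩⟩

theorem nontrivial_of_old (h : JS.IsJiangSuZ Z) : Nontrivial Z :=
  h.simple.nonzero.elim fun a ha => ⟨a, 0, ha⟩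

theorem ssa_of_old (h : JS.IsJiangSuZ Z) : IsSSA Z := by
  have := h.separable
  have := nontrivial_of_old h
  obtain ⟨E, _, T, hT⟩ := exists_spatial_one Z Z
  obtain ⟨θ, U, hU, h1⟩ := JS.Side095.absorption Z Z E h.limit
    ⟨Filter.hyperfilter ℕ, Filter.hyperfilter_le_cofinite, JS.PartV.no_char_of_ssa h.absorbing
      (JS.PartV.isEmpty_hom h.limit) _ Filter.hyperfilter_le_cofinite⟩ _ _ hT.completion
  refine ⟨E, inferInstance, T, θ, fun n => star ⟨U n, hU n⟩, hT, fun x => ?_⟩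
  rw [tendsto_iff_norm_sub_tendsto_zero]
  refine (tendsto_iff_norm_sub_tendsto_zero.1 (h1 x)).congr fun n => ?_
  have h2 : U n * star (U n) = 1 := (Unitary.mem_iff.1 (hU n)).2
  change _ = ‖star (U n) * θ x * star (star (U n)) - T x 1‖
  rw [← norm_conj (hU n) (_ - T x 1), star_star, mul_sub, sub_mul, ← mul_assoc, ← mul_assoc, h2,
    one_mul, mul_assoc (θ x), h2, mul_one, norm_sub_rev]
  rfl

theorem infinite_of_old (h : JS.IsJiangSuZ Z) : ¬ FiniteDimensional ℂ Z := by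
  intro hf
  have := nontrivial_of_old h
  obtain ⟨E, _, ⟨i, j, φ, hE, -⟩⟩ := h.absorbing.square
  let φ' : Z ≃ₗ[ℂ] E := { φ with map_smul' := map_smul φ }
  have : FiniteDimensional ℂ E := φ'.finiteDimensional
  have h1 := LinearMap.finrank_le_finrank_of_injective
    (f := (Algebra.TensorProduct.lift (i : Z →ₐ[ℂ] E) (j : Z →ₐ[ℂ] E) hE.comm).toLinearMap)
    hE.injective
  rw [Module.finrank_tensorProduct, ← φ'.finrank_eq] at h1
  have h2 : 0 < Module.finrank ℂ Z := Module.finrank_pos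
  have h3 : Module.finrank ℂ Z = 1 := by nlinarith
  obtain ⟨z, hz⟩ := JS.PartV.exists_not_scalar h.limit
  obtain ⟨c, hc⟩ := (finrank_eq_one_iff_of_nonzero' (1 : Z) one_ne_zero).1 h3 z
  exact hz c hc.symm

theorem folner {G : Type} [Group G] (h : P185.H564.HasLeftMean G) : P095.IsAmenable G := by
  classical
  intro S ε hε
  obtain ⟨K, hK, h⟩ := P215.Am.isAmenable_of_mean h S ε hε
  refine ⟨K, hK, fun s hs => le_trans ?_ (h s hs).le⟩
  refine Nat.cast_le.2 (Finset.card_le_card_of_injOn (fun g => s * g) (fun g hg => ?_)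
    (mul_right_injective s).injOn)
  simp only [Finset.coe_filter, Set.mem_ofPred_eq] at hg
  simp only [Finset.mem_coe, Finset.mem_symmDiff]
  exact Or.inl ⟨Finset.mem_image_of_mem _ hg.1, hg.2⟩

theorem mult_ext {B : Type u} [NonUnitalCStarAlgebra B] {x y : 𝓜(ℂ, B)}
    (h : ∀ b, x.fst b = y.fst b) : x = y := by
  refine DoubleCentralizer.ext ℂ B x y (Prod.ext (ContinuousLinearMap.ext h)
    (ContinuousLinearMap.ext fun a => ?_))
  rw [← sub_eq_zero, ← CStarRing.mul_star_self_eq_zero_iff, sub_mul, x.central, y.central, h,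
    sub_self]

theorem conj_of_old {A B : Type u} [NonUnitalCStarAlgebra A] [NonUnitalCStarAlgebra B] {G : Type}
    [Group G] {α : G →* (A ≃⋆ₐ[ℂ] A)} {β : G →* (B ≃⋆ₐ[ℂ] B)} (h : P095K.IsCocycleConj α β) :
    CocycleConj α β := by
  obtain ⟨Φ, u, hu, h1, h2⟩ := h.conj
  refine ⟨Φ, fun g => ⟨u g, hu g⟩, fun g k => mult_ext fun b => ?_, h2⟩
  have := h1 g k ((β g).symm b)
  rw [(β g).apply_symm_apply] at this
  exact this

theorem IsSpatial.old {A B : Type u} [NonUnitalCStarAlgebra A] [NonUnitalCStarAlgebra B]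
    {T : A →ₗ[ℂ] Z →ₗ[ℂ] B} (h : IsSpatial T) : P095K.IsTensorProd T :=
  ⟨h.ms.mul, h.ms.star, h.inj, h.1⟩

end Vale.Agent.P095L
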