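import Mathlib

/-! The notions of the problem, word for word: minimal (spatial) tensor products, the Jiang-Su
algebra, cocycle conjugacy. -/

open Filter Topology
open scoped TensorProduct MultiplierAlgebra Kronecker

namespace Vale.Agent.P095L

universe u

/-- The Hilbert space tensor product. -/
abbrev HT (H K : Type u) [NormedAddCommGroup H] [InnerProductSpace ℂ H] [NormedAddCommGroup K]
    [InnerProductSpace ℂ K] : Type u := UniformSpace.Completion (H ⊗[ℂ] K)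

/-- `B` is the minimal (spatial) tensor product of `A` and `Z`, with `T a z = a ⊗ z`: the
`T a z` span a dense subspace, and there are faithful representations `π`, `ρ`, `σ` of `A`, `Z`, `B`
on Hilbert spaces `H`, `K`, `H ⊗ K` with `σ (T a z) = π a ⊗ ρ z`. -/
def IsSpatial {A Z B : Type u} [NonUnitalCStarAlgebra A] [NonUnitalCStarAlgebra Z]
    [NonUnitalCStarAlgebra B] (T : A →ₗ[ℂ] Z →ₗ[ℂ] B) : Prop :=
  DenseRange (TensorProduct.lift T) ∧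
  ∃ (H K : Type u) (_ : NormedAddCommGroup H) (_ : InnerProductSpace ℂ H) (_ : CompleteSpace H)
    (_ : NormedAddCommGroup K) (_ : InnerProductSpace ℂ K) (_ : CompleteSpace K)
    (π : A →⋆ₙₐ[ℂ] (H →L[ℂ] H)) (ρ : Z →⋆ₙₐ[ℂ] (K →L[ℂ] K)) (σ : B →⋆ₙₐ[ℂ] (HT H K →L[ℂ] HT H K)),
    Function.Injective π ∧ Function.Injective ρ ∧ Function.Injective σ ∧
    ∀ a z h k, σ (T a z) ((h ⊗ₜ k : H ⊗[ℂ] K) : HT H K) = ((π a h ⊗ₜ ρ z k : H ⊗[ℂ] K) : HT H K)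

/-- Strongly self-absorbing: an isomorphism `φ : D → D ⊗ D` is approximately unitarily equivalent
to `x ↦ x ⊗ 1`. -/
def IsSSA (D : Type u) [CStarAlgebra D] : Prop :=
  ∃ (E : Type u) (_ : CStarAlgebra E) (T : D →ₗ[ℂ] D →ₗ[ℂ] E) (φ : D ≃⋆ₐ[ℂ] E)
    (v : ℕ → unitary E), IsSpatial T ∧
    ∀ x, Tendsto (fun n => (v n : E) * φ x * star (v n : E)) atTop (𝓝 (T x 1))

/-- The dimension drop algebra `I(p, q)`. -/
def I (p q : ℕ) : StarSubalgebra ℂ C(unitInterval, Matrix (Fin p × Fin q) (Fin p × Fin q) ℂ) where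
  carrier := {f | (∃ x : Matrix (Fin p) (Fin p) ℂ, f 0 = x ⊗ₖ (1 : Matrix (Fin q) (Fin q) ℂ)) ∧
    ∃ y : Matrix (Fin q) (Fin q) ℂ, f 1 = (1 : Matrix (Fin p) (Fin p) ℂ) ⊗ₖ y}
  mul_mem' := by
    rintro f g ⟨⟨x, hx⟩, ⟨y, hy⟩⟩ ⟨⟨x', hx'⟩, ⟨y', hy'⟩⟩
    exact ⟨⟨x * x', by simp [hx, hx', ← Matrix.mul_kronecker_mul]⟩,
      ⟨y * y', by simp [hy, hy', ← Matrix.mul_kronecker_mul]⟩⟩
  add_mem' := by
    rintro f g ⟨⟨x, hx⟩, ⟨y, hy⟩⟩ ⟨⟨x', hx'⟩, ⟨y', hy'⟩⟩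
    exact ⟨⟨x + x', by simp [hx, hx', Matrix.add_kronecker]⟩,
      ⟨y + y', by simp [hy, hy', Matrix.kronecker_add]⟩⟩
  algebraMap_mem' r :=
    ⟨⟨r • 1, by simp [Algebra.algebraMap_eq_smul_one, Matrix.smul_kronecker]⟩,
      ⟨r • 1, by simp [Algebra.algebraMap_eq_smul_one, Matrix.kronecker_smul]⟩⟩
  star_mem' := by
    rintro f ⟨⟨x, hx⟩, ⟨y, hy⟩⟩
    exact ⟨⟨star x, by simp [hx, Matrix.star_eq_conjTranspose, Matrix.conjTranspose_kronecker]⟩,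
      ⟨star y, by simp [hy, Matrix.star_eq_conjTranspose, Matrix.conjTranspose_kronecker]⟩⟩

/-- `Z` is the inductive limit of a sequence of prime dimension drop algebras with unital
embeddings `φ n`. -/
def IsLimit (Z : Type u) [CStarAlgebra Z] : Prop :=
  ∃ (p q : ℕ → ℕ) (φ : ∀ n, I (p n) (q n) →⋆ₐ[ℂ] I (p (n + 1)) (q (n + 1)))
    (ι : ∀ n, I (p n) (q n) →⋆ₐ[ℂ] Z),
    (∀ n, 1 ≤ p n ∧ 1 ≤ q n ∧ Nat.Coprime (p n) (q n) ∧ Function.Injective (ι n) ∧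
      (ι (n + 1)).comp (φ n) = ι n) ∧ Dense (⋃ n, Set.range (ι n))

/-- An automorphism as a continuous linear map. -/
noncomputable def clm {B : Type u} [NonUnitalCStarAlgebra B] (f : B ≃⋆ₐ[ℂ] B) : B →L[ℂ] B :=
  LinearMap.mkContinuous ⟨⟨f, map_add f⟩, map_smul f⟩ 1
    fun x => by simpa using NonUnitalStarAlgHom.norm_apply_le f x

/-- The extension of an automorphism `f` of `B` to the multiplier algebra:
`(L, R) ↦ (f L f⁻¹, f R f⁻¹)`. -/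
noncomputable def ext {B : Type u} [NonUnitalCStarAlgebra B] (f : B ≃⋆ₐ[ℂ] B) (x : 𝓜(ℂ, B)) :
    𝓜(ℂ, B) where
  fst := (clm f).comp (x.fst.comp (clm f.symm))
  snd := (clm f).comp (x.snd.comp (clm f.symm))
  central a b := by
    have h := congrArg f (x.central (f.symm a) (f.symm b))
    rw [map_mul, map_mul, f.apply_symm_apply, f.apply_symm_apply] at h
    exact h

/-- The actions `α` and `β` are cocycle conjugate. -/
def CocycleConj {A B : Type u} [NonUnitalCStarAlgebra A] [NonUnitalCStarAlgebra B] {G : Type}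
    [Group G] (α : G →* (A ≃⋆ₐ[ℂ] A)) (β : G →* (B ≃⋆ₐ[ℂ] B)) : Prop :=
  ∃ (Φ : A ≃⋆ₐ[ℂ] B) (u : G → unitary 𝓜(ℂ, B)),
    (∀ g h, (u (g * h) : 𝓜(ℂ, B)) = u g * ext (β g) (u h)) ∧
    ∀ g a, ((Φ (α g a) : B) : 𝓜(ℂ, B)) =
      u g * ((β g (Φ a) : B) : 𝓜(ℂ, B)) * star (u g : 𝓜(ℂ, B))

end Vale.Agent.P095L
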