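import Vale.Agent.P095JS.PartT1

/-! Jordan decomposition of functionals; Radon-Nikodym operators. -/

open Filter Topology UniformSpace
open scoped ComplexOrder ComplexStarModule

namespace Vale.Agent.P095L

universe u

variable {U : Type u} [CStarAlgebra U] [PartialOrder U] [StarOrderedRing U]

theorem exists_dominating (g : U →L[ℝ] ℝ) :
    ∃ h : U →L[ℝ] ℝ, (∀ x, 0 ≤ x → 0 ≤ h x) ∧ ∀ x, 0 ≤ x → g x ≤ h x := by
  let O : Set (U × ℝ) := {p | ‖g‖ * ‖p.1‖ < p.2}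
  let K : Set (U × ℝ) := {p | ∃ x y : U, 0 ≤ x ∧ 0 ≤ y ∧ p = (x + y, g x)}
  have hO : Convex ℝ O := by
    intro p hp q hq s t hs ht hst
    change ‖g‖ * ‖s • p.1 + t • q.1‖ < s * p.2 + t * q.2
    have h1 : ‖s • p.1 + t • q.1‖ ≤ s * ‖p.1‖ + t * ‖q.1‖ := by
      refine (norm_add_le _ _).trans (le_of_eq ?_)
      rw [norm_smul, norm_smul, Real.norm_of_nonneg hs, Real.norm_of_nonneg ht]
    have h2 : ‖g‖ * ‖p.1‖ < p.2 := hp
    have h3 : ‖g‖ * ‖q.1‖ < q.2 := hq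
    have h4 := mul_le_mul_of_nonneg_left h1 (norm_nonneg g)
    rcases hs.eq_or_lt with rfl | hs'
    · have : t = 1 := by linarith
      subst this
      linarith
    · nlinarith [mul_lt_mul_of_pos_left h2 hs', mul_le_mul_of_nonneg_left h3.le ht]
  have hK : Convex ℝ K := by
    rintro _ ⟨x, y, hx, hy, rfl⟩ _ ⟨x', y', hx', hy', rfl⟩ s t hs ht -
    refine ⟨s • x + t • x', s • y + t • y', add_nonneg (smul_nonneg hs hx) (smul_nonneg ht hx'),
      add_nonneg (smul_nonneg hs hy) (smul_nonneg ht hy'), Prod.ext ?_ ?_⟩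
    · change s • (x + y) + t • (x' + y') = _
      module
    · simp
  obtain ⟨φ, c, h1, h2⟩ := geometric_hahn_banach_open hO
    (isOpen_lt (by fun_prop) (by fun_prop)) hK (Set.disjoint_left.2 (by
      rintro _ hp ⟨x, y, hx, hy, rfl⟩
      have h3 : ‖g‖ * ‖x + y‖ < g x := hp
      have h4 : ‖x‖ ≤ ‖x + y‖ := CStarAlgebra.norm_le_norm_of_nonneg_of_le hx (le_add_of_nonneg_right hy)
      have h5 := (le_abs_self _).trans (g.le_opNorm x)
      nlinarith [norm_nonneg g]))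
  have hc : c ≤ 0 := by simpa using h2 0 ⟨0, 0, le_rfl, le_rfl, Prod.ext (by simp) (by simp)⟩
  have hl : φ (0, 1) < 0 := (h1 (0, 1) (by simp [O])).trans_le hc
  have hk : ∀ x y : U, 0 ≤ x → 0 ≤ y → 0 ≤ φ (x + y, g x) := by
    intro x y hx hy
    by_contra hn
    push Not at hn
    have ht : 0 ≤ (c - 1) / φ (x + y, g x) := div_nonneg_of_nonpos (by linarith) hn.le
    have h3 := h2 (((c - 1) / φ (x + y, g x)) • (x + y, g x))
      ⟨_, _, smul_nonneg ht hx, smul_nonneg ht hy, Prod.ext (smul_add _ _ _) (map_smul g _ _).symm⟩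
    rw [map_smul, smul_eq_mul, div_mul_cancel₀ _ hn.ne] at h3
    linarith
  have hs : ∀ (z : U) (t : ℝ), φ (z, t) = φ (z, 0) + t * φ (0, 1) := fun z t => by
    rw [← smul_eq_mul, ← map_smul, ← map_add]
    simp
  refine ⟨(-φ (0, 1))⁻¹ • φ.comp (ContinuousLinearMap.inl ℝ U ℝ), fun x hx => ?_, fun x hx => ?_⟩
  · have h3 := hk 0 x le_rfl hx
    rw [zero_add, map_zero] at h3
    exact mul_nonneg (inv_nonneg.2 (by linarith)) h3
  · have h3 := hk x 0 hx le_rfl
    rw [add_zero, hs] at h3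
    change g x ≤ (-φ (0, 1))⁻¹ * φ (x, 0)
    rw [inv_mul_eq_div, le_div_iff₀ (by linarith)]
    linarith

theorem jordan (f : U →L[ℂ] ℂ) :
    ∃ (c : Fin 4 → ℂ) (ω : Fin 4 → U →ₚ[ℂ] ℂ), ∀ x, f x = ∑ j, c j * ω j x := by
  have key : ∀ g : U →L[ℝ] ℝ, ∃ p q : U →ₚ[ℂ] ℂ, ∀ x, IsSelfAdjoint x → (g x : ℂ) = p x - q x := by
    intro g
    obtain ⟨h, h1, h2⟩ := exists_dominating g
    obtain ⟨p, hp⟩ := JS.PartT1.exists_ext h h1
    obtain ⟨q, hq⟩ := JS.PartT1.exists_ext (h - g) fun x hx => sub_nonneg.2 (h2 x hx)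
    exact ⟨p, q, fun x hx => by rw [hp x hx, hq x hx]; simp⟩
  obtain ⟨p, q, h1⟩ := key (Complex.reCLM.comp (f.restrictScalars ℝ))
  obtain ⟨p', q', h2⟩ := key (Complex.imCLM.comp (f.restrictScalars ℝ))
  refine ⟨![1, -1, Complex.I, -Complex.I], ![p, q, p', q'], fun x => ?_⟩
  have h3 : ∀ x, IsSelfAdjoint x → f x = p x - q x + (p' x - q' x) * Complex.I := fun x hx => by
    rw [← h1 x hx, ← h2 x hx]
    exact (Complex.re_add_im _).symm
  rw [← realPart_add_I_smul_imaginaryPart x]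
  simp only [Fin.sum_univ_four, map_add, map_smul, h3 _ (realPart x).2, h3 _ (imaginaryPart x).2,
    Matrix.cons_val_zero, Matrix.cons_val_one, Matrix.cons_val, smul_eq_mul]
  ring

/-- the class of an element in the GNS space -/
noncomputable def vec (ω : U →ₚ[ℂ] ℂ) : U →ₗ[ℂ] ω.GNS :=
  (Completion.toComplL (𝕜 := ℂ) (E := ω.PreGNS)).toLinearMap ∘ₗ ω.toPreGNS.toLinearMap

theorem vec_apply (ω : U →ₚ[ℂ] ℂ) (a : U) : vec ω a = ((ω.toPreGNS a : ω.PreGNS) : ω.GNS) := rfl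

theorem inner_vec (ω : U →ₚ[ℂ] ℂ) (a b : U) : inner ℂ (vec ω a) (vec ω b) = ω (star a * b) := by
  rw [vec_apply, vec_apply, Completion.inner_coe]
  rfl

theorem gns_vec (ω : U →ₚ[ℂ] ℂ) (a b : U) : ω.gnsStarAlgHom a (vec ω b) = vec ω (a * b) :=
  ω.gnsNonUnitalStarAlgHom_apply_coe

theorem dense_vec (ω : U →ₚ[ℂ] ℂ) : DenseRange (vec ω) :=
  Completion.denseRange_coe.comp ω.toPreGNS.surjective.denseRange (Completion.continuous_coe _)

theorem radon (ω f : U →ₚ[ℂ] ℂ) (h : ∀ a, f (star a * a) ≤ ω (star a * a)) :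
    ∃ T : ω.GNS →L[ℂ] ω.GNS, (∀ a, Commute (ω.gnsStarAlgHom a) T) ∧
      ∀ a b, inner ℂ (vec ω a) (T (vec ω b)) = f (star a * b) := by
  have hle : ∀ a, ‖vec f a‖ ≤ 1 * ‖vec ω a‖ := fun a => by
    rw [one_mul, vec_apply, vec_apply, Completion.norm_coe, Completion.norm_coe]
    exact Real.sqrt_le_sqrt (h a).1
  let V : ω.GNS →L[ℂ] f.GNS := (vec f).extendOfNorm (vec ω)
  have hV : ∀ a, V (vec ω a) = vec f a := fun a =>
    LinearMap.extendOfNorm_eq (dense_vec ω) ⟨1, hle⟩ a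
  have hT : ∀ a b, inner ℂ (vec ω a) ((V.adjoint.comp V) (vec ω b)) = f (star a * b) := fun a b => by
    rw [ContinuousLinearMap.comp_apply, ContinuousLinearMap.adjoint_inner_right, hV, hV, inner_vec]
  refine ⟨V.adjoint.comp V, fun a => ?_, hT⟩
  generalize V.adjoint.comp V = T at hT
  refine ContinuousLinearMap.ext fun y => ?_
  refine (dense_vec ω).induction_on (p := fun y => ω.gnsStarAlgHom a (T y) = T (ω.gnsStarAlgHom a y))
    y (isClosed_eq (by fun_prop) (by fun_prop)) fun b => ?_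
  refine ext_inner_left ℂ fun z => ?_
  refine (dense_vec ω).induction_on (p := fun z => inner ℂ z (ω.gnsStarAlgHom a (T (vec ω b))) =
    inner ℂ z (T (ω.gnsStarAlgHom a (vec ω b)))) z (isClosed_eq (by fun_prop) (by fun_prop))
    fun c => ?_
  rw [← ContinuousLinearMap.adjoint_inner_left, ← ContinuousLinearMap.star_eq_adjoint, ← map_star,
    gns_vec, gns_vec, hT, hT, star_mul, star_star, mul_assoc]

end Vale.Agent.P095L
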