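import Vale.Agent.P095L58.B
import Vale.Agent.P095L58.E
import Vale.Agent.P095L58.Defs2

/-! The key estimate for algebras with unique C*-tensor norms. -/

set_option linter.unusedSectionVars false

open Filter Topology UniformSpace
open scoped TensorProduct ComplexOrder

namespace Vale.Agent.P095L

universe u

variable {A Z P Q : Type u} [NonUnitalCStarAlgebra A] [NonUnitalCStarAlgebra Z]
  [NonUnitalCStarAlgebra P] [NonUnitalCStarAlgebra Q]

theorem MS.cstarNorm {T : A →ₗ[ℂ] Z →ₗ[ℂ] P} (h : MS T)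
    (hi : Function.Injective (TensorProduct.lift T)) :
    IsCStarNorm fun x => ‖TensorProduct.lift T x‖ where
  eq_zero x hx := hi (by rw [norm_eq_zero.1 hx, map_zero])
  add x y := by rw [map_add]; exact norm_add_le _ _
  smul c x := by rw [map_smul, norm_smul]
  mul x y := by rw [h.lift_mul]; exact norm_mul_le _ _
  cstar x := by rw [h.lift_mul, h.lift_star, CStarRing.norm_star_mul_self, sq]

theorem OneNorm.le (hA : OneNorm A) {T : A →ₗ[ℂ] Z →ₗ[ℂ] P} {T' : A →ₗ[ℂ] Z →ₗ[ℂ] Q} (h : MS T)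
    (h' : MS T') (hi : Function.Injective (TensorProduct.lift T)) (x : A ⊗[ℂ] Z) :
    ‖TensorProduct.lift T' x‖ ≤ ‖TensorProduct.lift T x‖ := by
  let S : A →ₗ[ℂ] Z →ₗ[ℂ] P × Q := LinearMap.mk₂ ℂ (fun a z => (T a z, T' a z))
    (fun a a' z => by simp) (fun c a z => by simp) (fun a z z' => by simp) (fun c a z => by simp)
  have hS : MS S := ⟨fun a a' z z' => Prod.ext (h.mul _ _ _ _) (h'.mul _ _ _ _),
    fun a z => Prod.ext (h.star _ _) (h'.star _ _)⟩
  have h1 := lift_map (NonUnitalStarAlgHom.fst ℂ P Q) (T := S) (T' := T) fun a z => rfl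
  have h2 := lift_map (NonUnitalStarAlgHom.snd ℂ P Q) (T := S) (T' := T') fun a z => rfl
  have h3 := congrFun (hA Z _ _ (hS.cstarNorm fun x y hxy => hi (by rw [← h1, ← h1, hxy]))
    (h.cstarNorm hi)) x
  rw [← h2]
  exact (norm_snd_le _).trans h3.le

theorem nonneg_of_inj [PartialOrder P] [StarOrderedRing P] [PartialOrder Q] [StarOrderedRing Q]
    (σ : P →⋆ₙₐ[ℂ] Q) (hσ : Function.Injective σ) {y : P} (hy : IsSelfAdjoint y) (h : 0 ≤ σ y) :
    0 ≤ y := by
  have hn : 0 ≤ y⁻ := CFC.negPart_nonneg y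
  have hs : star y⁻ = y⁻ := hn.isSelfAdjoint.star_eq
  have h1 : y⁻ * y * y⁻ = -(y⁻ * y⁻ * y⁻) := by
    nth_rw 2 [← CFC.posPart_sub_negPart y hy]
    rw [mul_sub, CFC.negPart_mul_posPart, zero_sub, neg_mul]
  have h2 : 0 ≤ σ (y⁻ * y * y⁻) := by
    have := star_left_conjugate_nonneg h (σ y⁻)
    rwa [← map_star, hs, ← map_mul, ← map_mul] at this
  have h3 : 0 ≤ σ (y⁻ * y⁻ * y⁻) := by
    have := star_left_conjugate_nonneg hn y⁻
    rw [hs] at this
    exact map_nonneg σ this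
  rw [h1, map_neg, neg_nonneg] at h2
  have h4 : y⁻ * y⁻ * y⁻ = 0 := hσ ((le_antisymm h2 h3).trans (map_zero σ).symm)
  have h5 : y⁻ * y⁻ = 0 := by
    rw [← CStarRing.star_mul_self_eq_zero_iff, star_mul, hs, ← mul_assoc, h4, zero_mul]
  rw [← CFC.negPart_eq_zero_iff y hy, ← CStarRing.star_mul_self_eq_zero_iff, hs, h5]

theorem transfer [PartialOrder P] [StarOrderedRing P] [PartialOrder Q] [StarOrderedRing Q]
    {T : A →ₗ[ℂ] Z →ₗ[ℂ] P} {T' : A →ₗ[ℂ] Z →ₗ[ℂ] Q} (h : MS T) (h' : MS T')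
    (hle : ∀ x, ‖TensorProduct.lift T' x‖ ≤ ‖TensorProduct.lift T x‖) (x : A ⊗[ℂ] Z)
    (hx : 0 ≤ -(TensorProduct.lift T x + star (TensorProduct.lift T x))) :
    0 ≤ -(TensorProduct.lift T' x + star (TensorProduct.lift T' x)) := by
  obtain ⟨D, _, S, σ, hd, hσ, hS⟩ := exists_closure h
  let _ := CStarAlgebra.spectralOrder D
  have _ := CStarAlgebra.spectralOrderedRing D
  have hms : MS S := ⟨fun a a' z z' => hσ (by rw [map_mul σ, hS, hS, hS, h.mul]),
    fun a z => hσ (by rw [map_star σ, hS, hS, h.star])⟩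
  obtain ⟨Θ, hΘ⟩ := exists_hom hms h' hd fun x => by
    rw [← NonUnitalStarAlgHom.norm_map σ hσ, lift_map σ hS]
    exact hle x
  rw [← lift_map σ hS, ← map_star, ← map_add, ← map_neg] at hx
  rw [← hΘ, ← map_star, ← map_add, ← map_neg]
  exact map_nonneg Θ (nonneg_of_inj σ hσ (IsSelfAdjoint.add_star_self _).neg hx)

section hilb

variable {H K : Type u} [NormedAddCommGroup H] [InnerProductSpace ℂ H] [CompleteSpace H]
  [NormedAddCommGroup K] [InnerProductSpace ℂ K] [CompleteSpace K]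

theorem re_nonpos_iff (X : H →L[ℂ] H) :
    0 ≤ -(X + star X) ↔ ∀ v, (inner ℂ v (X v)).re ≤ 0 := by
  have h1 : ∀ v, (-(X + star X)).reApplyInnerSelf v = -(2 * (inner ℂ v (X v)).re) := fun v => by
    rw [ContinuousLinearMap.reApplyInnerSelf_apply, neg_apply, add_apply, inner_neg_left,
      inner_add_left, ContinuousLinearMap.star_eq_adjoint, ContinuousLinearMap.adjoint_inner_left,
      map_neg, map_add, inner_re_symm]
    simp only [RCLike.re_to_complex]
    ring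
  rw [ContinuousLinearMap.nonneg_iff_isPositive, ContinuousLinearMap.isPositive_def']
  simp only [h1]
  exact ⟨fun h v => by linarith [h.2 v],
    fun h => ⟨(IsSelfAdjoint.add_star_self _).neg, fun v => by linarith [h v]⟩⟩

theorem dense_sums {V : Type u} [AddCommGroup V] [Module ℂ V] (e : V →ₗ[ℂ] K) (he : DenseRange e) :
    Dense {η : HT H K | ∃ (m : ℕ) (v : Fin m → H) (b : Fin m → V), η = ∑ k, tt (v k) (e (b k))} := by
  let L : H ⊗[ℂ] V →ₗ[ℂ] HT H K :=
    (Completion.toComplL (𝕜 := ℂ) (E := H ⊗[ℂ] K)).toLinearMap ∘ₗ e.lTensor H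
  have h1 : Dense (LinearMap.range L : Set (HT H K)) := by
    rw [Submodule.dense_iff_topologicalClosure_eq_top, Submodule.topologicalClosure_eq_top_iff,
      Submodule.eq_bot_iff]
    intro w hw
    have h2 : innerSL ℂ w = 0 := op_ext (F := ℂ) fun h k => by
      have hc : Continuous fun k : K => tt h k :=
        (Completion.continuous_coe _).comp (AddMonoidHomClass.continuous_of_bound
          (TensorProduct.mk ℂ H K h) ‖h‖ fun k => by simp)
      refine he.induction_on (p := fun k => innerSL ℂ w (tt h k) = 0) k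
        (isClosed_eq (by fun_prop) continuous_const) fun b => ?_
      exact (Submodule.mem_orthogonal' _ _).1 hw _ ⟨h ⊗ₜ b, rfl⟩
    have h3 := congrArg (fun f : HT H K →L[ℂ] ℂ => f w) h2
    simpa using h3
  refine h1.mono ?_
  rintro _ ⟨x, rfl⟩
  obtain ⟨m, v, b, rfl⟩ := TensorProduct.exists_sum_tmul_eq x
  exact ⟨m, v, b, by rw [map_sum]; rfl⟩

theorem core_rep (hA : OneNorm A) (π : A →⋆ₙₐ[ℂ] (H →L[ℂ] H)) (hπ : Function.Injective π)
    (μ : A →⋆ₙₐ[ℂ] (K →L[ℂ] K)) {S : Type} [Fintype S] (a : S → A) (T : S → K →L[ℂ] K)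
    (hT : ∀ s x, Commute (μ x) (T s))
    (h : ∀ η : HT H K, (∑ s, inner ℂ η ((lA K (π (a s)) * rA H (T s)) η)).re ≤ 0) (ξ : K) :
    (∑ s, inner ℂ ξ (μ (a s) (T s ξ))).re ≤ 0 := by
  let B := StarSubalgebra.centralizer ℂ (Set.range μ)
  have hcl : IsClosed (B : Set (K →L[ℂ] K)) := Set.isClosed_centralizer _
  let _ := StarSubalgebra.cstarAlgebra B
  let j : B →⋆ₙₐ[ℂ] (K →L[ℂ] K) := B.subtype.toNonUnitalStarAlgHom
  have hj : Function.Injective j := Subtype.val_injective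
  have hTB : ∀ s, T s ∈ B := fun s => (StarSubalgebra.mem_centralizer_iff ℂ).2 (by
    rintro _ ⟨x, rfl⟩
    exact ⟨hT s x, by rw [← map_star]; exact hT s _⟩)
  have hms : MS (B := K →L[ℂ] K) (bl (P := K →L[ℂ] K) μ j) := bl_ms fun x z =>
    ((StarSubalgebra.mem_centralizer_iff ℂ).1 z.2 _ ⟨x, rfl⟩).1
  have hi : Function.Injective (TensorProduct.lift (sp π j)) := by
    rw [injective_iff_map_eq_zero]
    intro x hx
    refine eq_zero_of_fg x fun f g => ?_
    have h1 := sp_bd π j hπ hj f g x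
    have h2 : ‖(TensorProduct.lift (sp π j) x : HT H K →L[ℂ] HT H K)‖ = 0 := by
      rw [hx]; exact norm_zero (E := HT H K →L[ℂ] HT H K)
    exact norm_le_zero_iff.1 (h1.trans (mul_eq_zero_of_right _ h2).le)
  have h1 := transfer (P := HT H K →L[ℂ] HT H K) (Q := K →L[ℂ] K) (sp_ms π j) hms
    (hA.le (P := HT H K →L[ℂ] HT H K) (Q := K →L[ℂ] K) (sp_ms π j) hms hi)
    (∑ s, a s ⊗ₜ ⟨T s, hTB s⟩) ((re_nonpos_iff _).2 fun η => by
      rw [map_sum, sum_apply, inner_sum]
      exact h η)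
  have h2 := (re_nonpos_iff _).1 h1 ξ
  rw [map_sum, sum_apply, inner_sum] at h2
  exact h2

theorem core {U : Type u} [CStarAlgebra U] [PartialOrder U] [StarOrderedRing U] (hA : OneNorm A)
    (ι : A →⋆ₙₐ[ℂ] U) (π : A →⋆ₙₐ[ℂ] (H →L[ℂ] H)) (hπ : Function.Injective π) {S : Type}
    [Fintype S] (ω : S → U →ₚ[ℂ] ℂ) (a : S → A)
    (h : ∀ (m : ℕ) (v : Fin m → H) (b : Fin m → U), (∑ s, ω s
      (∑ k, ∑ l, inner ℂ (v k) (π (a s) (v l)) • (star (b k) * b l))).re ≤ 0) :
    (∑ s, ω s (ι (a s))).re ≤ 0 := by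
  let Ω : U →ₚ[ℂ] ℂ := PositiveLinearMap.mk₀ (∑ s, (ω s).toLinearMap) fun x hx => by
    rw [LinearMap.sum_apply]
    exact Finset.sum_nonneg fun s _ => (ω s).map_nonneg hx
  choose T hT1 hT2 using fun s => radon Ω (ω s) fun x => by
    change _ ≤ (∑ s, (ω s).toLinearMap) _
    rw [LinearMap.sum_apply]
    exact Finset.single_le_sum (f := fun s => (ω s).toLinearMap (star x * x))
      (fun s _ => (ω s).map_nonneg (star_mul_self_nonneg x)) (Finset.mem_univ s)
  have h1 := core_rep hA π hπ (Ω.gnsStarAlgHom.toNonUnitalStarAlgHom.comp ι) a T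
    (fun s x => hT1 s (ι x)) (fun η => ?_) (vec Ω 1)
  · refine (le_of_eq ?_).trans h1
    congr 1
    refine Finset.sum_congr rfl fun s _ => ?_
    have h2 := hT2 s 1 (ι (a s) * 1)
    rw [← gns_vec, star_one, one_mul, mul_one] at h2
    rw [← h2]
    exact congrArg (inner ℂ (vec Ω 1)) (DFunLike.congr_fun (hT1 s (ι (a s))).eq (vec Ω 1)).symm
  refine closure_minimal (t := {η : HT H Ω.GNS |
    (∑ s, inner ℂ η ((lA Ω.GNS (π (a s)) * rA H (T s)) η)).re ≤ 0}) ?_
    (isClosed_le (by fun_prop) continuous_const) (dense_sums (vec Ω) (dense_vec Ω) η)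
  rintro _ ⟨m, v, b, rfl⟩
  refine (le_of_eq ?_).trans (h m v b)
  congr 1
  refine Finset.sum_congr rfl fun s _ => ?_
  rw [sum_inner, map_sum (ω s)]
  refine Finset.sum_congr rfl fun k _ => ?_
  rw [map_sum, inner_sum, map_sum]
  refine Finset.sum_congr rfl fun l _ => ?_
  rw [lr_tt, inner_tt, hT2, map_smul, smul_eq_mul]

end hilb

end Vale.Agent.P095L
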