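import Mathlib
import Vale.Agent.P095JS.Stmt

/-! The notions of the problem, word for word: minimal (spatial) tensor products, the Jiang-Su
algebra, amenable groups, nuclear algebras, cocycle conjugacy. -/

open Filter Topology
open scoped TensorProduct MultiplierAlgebra Kronecker

namespace Vale.Agent.P095S

universe u

section tensor

variable (A Z B : Type u) [NonUnitalCStarAlgebra A] [NonUnitalCStarAlgebra Z]
  [NonUnitalCStarAlgebra B] (H K L : Type u) [NormedAddCommGroup H] [InnerProductSpace ℂ H]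
  [CompleteSpace H] [NormedAddCommGroup K] [InnerProductSpace ℂ K] [CompleteSpace K]
  [NormedAddCommGroup L] [InnerProductSpace ℂ L] [CompleteSpace L]

/-- Isomorphic C*-algebras. -/
def Iso : Prop := Nonempty (A ≃⋆ₐ[ℂ] B)

/-- Bilinear maps; `T a z` stands for `a ⊗ z`. -/
abbrev Bil : Type u := A →ₗ[ℂ] Z →ₗ[ℂ] B

/-- Representations of `A` on the Hilbert space `H`. -/
abbrev Rep : Type u := A →⋆ₙₐ[ℂ] (H →L[ℂ] H)

/-- Actions of `G` on `A`. -/
abbrev Act (G : Type) [Group G] : Type u := G →* (A ≃⋆ₐ[ℂ] A)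

variable {A Z B H K L}

/-- There are faithful representations `π`, `ρ`, `σ` of `A`, `Z`, `B` on `H`, `K`, `L` with
`σ (T a z) = π a ⊗ ρ z`, where `t h k` stands for `h ⊗ k`. -/
def Implements (t : H → K → L) (T : Bil A Z B) : Prop :=
  ∃ (π : Rep A H) (ρ : Rep Z K) (σ : Rep B L), Function.Injective π ∧ Function.Injective ρ ∧
    Function.Injective σ ∧ ∀ a z h k, σ (T a z) (t h k) = t (π a h) (ρ z k)

variable (H K) in
/-- The same for the Hilbert space tensor product `L`, the completion of `H ⊗ K`. -/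
def SpatialOn (T : Bil A Z B) : Prop :=
  Implements (L := UniformSpace.Completion (H ⊗[ℂ] K)) (fun h k => (h ⊗ₜ k : H ⊗[ℂ] K)) T

/-- `B` is, via `T`, the minimal (spatial) tensor product of `A` and `Z`. -/
def IsSpatial (T : Bil A Z B) : Prop :=
  DenseRange (TensorProduct.lift T) ∧
  ∃ (H K : Type u) (_ : NormedAddCommGroup H) (_ : InnerProductSpace ℂ H) (_ : CompleteSpace H)
    (_ : NormedAddCommGroup K) (_ : InnerProductSpace ℂ K) (_ : CompleteSpace K), SpatialOn H K T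

/-- The tensor products `T` and `T'` are the same up to isomorphism. -/
def SameTensor {B' : Type u} [NonUnitalCStarAlgebra B'] (T : Bil A Z B) (T' : Bil A Z B') : Prop :=
  ∃ Θ : B ≃⋆ₐ[ℂ] B', ∀ a z, Θ (T a z) = T' a z

/-- `β` is the action `α ⊗ id`. -/
def IsTensorId {G : Type} [Group G] (T : Bil A Z B) (α : Act A G) (β : Act B G) : Prop :=
  ∀ g a z, β g (T a z) = T (α g a) z

/-- An automorphism as a continuous linear map. -/
noncomputable def clm (f : B ≃⋆ₐ[ℂ] B) : B →L[ℂ] B :=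
  LinearMap.mkContinuous ⟨⟨f, map_add f⟩, map_smul f⟩ 1
    fun x => by simpa using NonUnitalStarAlgHom.norm_apply_le f x

/-- The extension of an automorphism `f` of `B` to the multiplier algebra:
`(L, R) ↦ (f L f⁻¹, f R f⁻¹)`. -/
noncomputable def ext (f : B ≃⋆ₐ[ℂ] B) (x : 𝓜(ℂ, B)) : 𝓜(ℂ, B) where
  fst := (clm f).comp (x.fst.comp (clm f.symm))
  snd := (clm f).comp (x.snd.comp (clm f.symm))
  central a b := by
    have h := congrArg f (x.central (f.symm a) (f.symm b))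
    rw [map_mul, map_mul, f.apply_symm_apply, f.apply_symm_apply] at h
    exact h

/-- The actions `α` and `β` are cocycle conjugate. -/
def CocycleConj {G : Type} [Group G] (α : Act A G) (β : Act B G) : Prop :=
  ∃ (Φ : A ≃⋆ₐ[ℂ] B) (u : G → unitary 𝓜(ℂ, B)),
    (∀ g h, (u (g * h) : 𝓜(ℂ, B)) = u g * ext (β g) (u h)) ∧
    ∀ g a, ((Φ (α g a) : B) : 𝓜(ℂ, B)) =
      u g * ((β g (Φ a) : B) : 𝓜(ℂ, B)) * star (u g : 𝓜(ℂ, B))

/-- `n` is a C*-norm on the algebraic tensor product of `A` and `B`. -/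
structure IsCStarNorm (n : A ⊗[ℂ] B → ℝ) : Prop where
  eq_zero : ∀ x, n x = 0 → x = 0
  add : ∀ x y, n (x + y) ≤ n x + n y
  smul : ∀ (c : ℂ) x, n (c • x) = ‖c‖ * n x
  mul : ∀ x y, n (x * y) ≤ n x * n y
  cstar : ∀ x, n (star x * x) = n x ^ 2

variable (A B) in
/-- There is at most one C*-norm on the algebraic tensor product of `A` and `B`. -/
def OneNorm : Prop := ∀ n n' : A ⊗[ℂ] B → ℝ, IsCStarNorm n → IsCStarNorm n' → n = n'

variable (A) in
/-- `A` is separable, simple and nuclear, in one of the two usual senses: the completely positive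
approximation property, or uniqueness of the C*-norm on all algebraic tensor products. -/
def SepSimpleNuc : Prop := TopologicalSpace.SeparableSpace A ∧ P095R.IsSimpleAlg A ∧
  (P095R.IsNuclearAlg A ∨ ∀ (B : Type u) [NonUnitalCStarAlgebra B], OneNorm A B)

end tensor

/-- `E = D ⊗ D`, and an isomorphism `φ : D → E` is approximately unitarily equivalent to
`x ↦ x ⊗ 1`. -/
def SelfTensor (D E : Type u) [CStarAlgebra D] [CStarAlgebra E] : Prop :=
  ∃ (T : Bil D D E) (φ : D ≃⋆ₐ[ℂ] E) (v : ℕ → unitary E), IsSpatial T ∧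
    ∀ x, Tendsto (fun n => (v n : E) * φ x * star (v n : E)) atTop (𝓝 (T x 1))

/-- Strongly self-absorbing. -/
def IsSSA (D : Type u) [CStarAlgebra D] : Prop :=
  ∃ (E : Type u) (_ : CStarAlgebra E), SelfTensor D E

/-- The dimension drop algebra `I(p, q)`. -/
def I (p q : ℕ) : StarSubalgebra ℂ C(unitInterval, Matrix (Fin p × Fin q) (Fin p × Fin q) ℂ) where
  carrier := {f | (∃ x : Matrix (Fin p) (Fin p) ℂ, f 0 = x ⊗ₖ (1 : Matrix (Fin q) (Fin q) ℂ)) ∧
    ∃ y : Matrix (Fin q) (Fin q) ℂ, f 1 = (1 : Matrix (Fin p) (Fin p) ℂ) ⊗ₖ y}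
  mul_mem' := by
    rintro f g ⟨⟨x, hx⟩, ⟨y, hy⟩⟩ ⟨⟨x', hx'⟩, ⟨y', hy'⟩⟩
    exact ⟨⟨x * x', by simp [hx, hx', ← Matrix.mul_kronecker_mul]⟩,
      ⟨y * y', by simp [hy, hy', ← Matrix.mul_kronecker_mul]⟩⟩
  add_mem' := by
    rintro f g ⟨⟨x, hx⟩, ⟨y, hy⟩⟩ ⟨⟨x', hx'⟩, ⟨y', hy'⟩⟩
    exact ⟨⟨x + x', by simp [hx, hx', Matrix.add_kronecker]⟩,
      ⟨y + y', by simp [hy, hy', Matrix.kronecker_add]⟩⟩
  algebraMap_mem' r :=
    ⟨⟨r • 1, by simp [Algebra.algebraMap_eq_smul_one, Matrix.smul_kronecker]⟩,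
      ⟨r • 1, by simp [Algebra.algebraMap_eq_smul_one, Matrix.kronecker_smul]⟩⟩
  star_mem' := by
    rintro f ⟨⟨x, hx⟩, ⟨y, hy⟩⟩
    exact ⟨⟨star x, by simp [hx, Matrix.star_eq_conjTranspose, Matrix.conjTranspose_kronecker]⟩,
      ⟨star y, by simp [hy, Matrix.star_eq_conjTranspose, Matrix.conjTranspose_kronecker]⟩⟩

variable (Z : Type u) [CStarAlgebra Z]

/-- `Z` is the inductive limit of the algebras `D n` along unital embeddings `φ n`. -/
def IsIndLimit (D : ℕ → Type) [∀ n, Semiring (D n)] [∀ n, Algebra ℂ (D n)] [∀ n, Star (D n)] :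
    Prop :=
  ∃ (φ : ∀ n, D n →⋆ₐ[ℂ] D (n + 1)) (ι : ∀ n, D n →⋆ₐ[ℂ] Z),
    (∀ n, Function.Injective (ι n) ∧ (ι (n + 1)).comp (φ n) = ι n) ∧ Dense (⋃ n, Set.range (ι n))

/-- `Z` is an inductive limit of prime dimension drop algebras. -/
def IsLimit : Prop :=
  ∃ p q : ℕ → ℕ, (∀ n, 1 ≤ p n ∧ 1 ≤ q n ∧ Nat.Coprime (p n) (q n)) ∧
    IsIndLimit Z fun n => I (p n) (q n)

/-- `Z` has exactly one tracial state. -/
def OneTrace : Prop := ∃! τ : Z →ₗ[ℂ] ℂ, JS.IsTracialState τ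

/-- The Jiang-Su algebra: a simple inductive limit of prime dimension drop algebras with exactly
one tracial state. -/
def IsJS : Prop := IsLimit Z ∧ P095R.IsSimpleAlg Z ∧ OneTrace Z

/-- Separable, nuclear, infinite-dimensional and strongly self-absorbing. -/
def Listed : Prop := TopologicalSpace.SeparableSpace Z ∧ P095R.IsNuclearAlg Z ∧
  ¬ FiniteDimensional ℂ Z ∧ IsSSA Z

/-- Bounded functions. -/
def Bdd {G : Type} (f : G → ℝ) : Prop := ∃ C, ∀ g, |f g| ≤ C

/-- `G` is amenable: there is a left invariant mean `m` on the bounded functions (its values at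
other functions do not matter). -/
def Amenable (G : Type) [Group G] : Prop :=
  ∃ m : (G → ℝ) → ℝ, m 1 = 1 ∧ ∀ f, Bdd f → (∀ f', Bdd f' → m (f + f') = m f + m f') ∧
    (∀ c : ℝ, m (c • f) = c * m f) ∧ (0 ≤ f → 0 ≤ m f) ∧ ∀ h, m (fun g => f (h * g)) = m f

end Vale.Agent.P095S
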