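import Vale.Agent.P095L58.St
import Vale.Agent.P095L58.D
import Vale.Agent.P095L58.G
import Vale.Agent.P095U65.Main

/-! The notions of the statement file and the working notions. -/

namespace Vale.Agent.P095S

universe u

variable {Z : Type u} [CStarAlgebra Z]

theorem isLimit_iff : IsLimit Z ↔ P095L.Lim Z := by
  rw [← P095L.isLimit_iff]
  exact ⟨fun ⟨p, q, h, φ, ι, h1, h2⟩ => ⟨p, q, φ, ι, fun n => ⟨(h n).1, (h n).2.1, (h n).2.2, h1 n⟩,
    h2⟩, fun ⟨p, q, φ, ι, h, h2⟩ => ⟨p, q, fun n => ⟨(h n).1, (h n).2.1, (h n).2.2.1⟩, φ, ι,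
    fun n => (h n).2.2.2, h2⟩⟩

theorem IsJS.old (h : IsJS Z) : JS.IsJiangSuZ Z :=
  P095U65.IsJS.isJiangSuZ JS.Side095.absorption ⟨isLimit_iff.1 h.1, h.2.1, h.2.2⟩

theorem isJS_of_old (h : JS.IsJiangSuZ Z) : IsJS Z :=
  ⟨isLimit_iff.2 h.limit.limit, h.simple, h.trace⟩

theorem isJS_of_ssa (hl : IsLimit Z) (hs : IsSSA Z) : IsJS Z :=
  isJS_of_old (P095L.old_of_new (P095L.isLimit_iff.2 (isLimit_iff.1 hl)) hs)

theorem IsJS.listed (h : IsJS Z) : Listed Z :=
  ⟨h.old.separable, h.old.nuclear, P095L.infinite_of_old h.old, P095L.ssa_of_old h.old⟩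

theorem Amenable.mean {G : Type} [Group G] (h : Amenable G) : P185.H564.HasLeftMean G := by
  obtain ⟨m, h1, h⟩ := h
  exact ⟨{ toFun := fun f => m f
           map_add' := fun f g => (h f f.2).1 g g.2
           map_smul' := fun c f => (h f f.2).2.1 c }, h1, fun f hf => (h f f.2).2.2.1 hf,
    fun g f => (h f f.2).2.2.2 g⟩

theorem SepSimpleNuc.cpap {A : Type u} [NonUnitalCStarAlgebra A] (h : SepSimpleNuc A) :
    P095R.IsNuclearAlg A :=
  h.2.2.elim id fun h => P095L.cpap_of_oneNorm fun B _ n n' h1 h2 =>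
    h B n n' ⟨h1.1, h1.2, h1.3, h1.4, h1.5⟩ ⟨h2.1, h2.2, h2.3, h2.4, h2.5⟩

theorem conj {A B : Type u} [NonUnitalCStarAlgebra A] [NonUnitalCStarAlgebra B] (hZ : IsJS Z)
    {T : Bil A Z B} (hT : IsSpatial T) {G : Type} [Group G] {α : Act A G} {β : Act B G}
    (hβ : IsTensorId T α β) (hA : SepSimpleNuc A) (hAB : Iso A B) (hc : Countable G)
    (hG : Amenable G) : CocycleConj α β :=
  have := hA.1
  P095L.conj_of_old (P095K.general_conj hA.2.1 hA.cpap hZ.old.limit hZ.old.absorbing T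
    (P095L.IsSpatial.old hT) hAB (P095L.folner hG.mean) α β hβ)

end Vale.Agent.P095S
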